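import Crest.Agent.N228.O.Defs
import Crest.Agent.N228.O.Same
import Crest.Agent.N228.G.Defs

/-!
# Row 228, the top layer (helper94): FROZEN interfaces

What part A owes : `ARun n s s' C c` (one run on an annulus, in colour form).
What is used of part G (`G.GStmt`) : `GSep n` (one localised step for a radial colour) and `GEnd n`
(the end points of the relative path theorem on a closed manifold).
`FRun`, `FSep`, `FEnd` : the same on the open manifold, in the language of forms.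
`TopStmt` : they give `Width n C`.
-/

set_option autoImplicit false
open MeasureTheory Set Filter Topology Function Real
open scoped ContDiff

noncomputable section

namespace Crest.Agent.N228.T
open Crest.Agent.N222
open Crest.Agent.N228.G (Few Shr Shr1 ev)

variable {d : ℕ} {ι : Type} [Fintype ι] [DecidableEq ι] {X : Type} [TopologicalSpace X]
  {C : Type} [Fintype C]

/-- the class at a point: one `η`, no reserves -/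
def Cls (M : Imm d ι X) (η : ℝ) (φ : C → X → ℝ) (v : ℝ) (p : X) : Prop :=
  G.Good d (fun _ => η) 0 v (G.ev φ p) (G.gr M φ p)

/-- the same, paid by the budget -/
def Pay (M : Imm d ι X) (η : ℝ) (φ : C → X → ℝ) (v : ℝ) (p : X) : Prop :=
  G.Ok (fun _ => η) 0 v (G.ev φ p) (G.gr M φ p)

/-- the colours of a run: core `θ ≤ 0`, nothing on `W ≤ θ` -/
structure Col {X : Type} [MetricSpace X] {G : Type} (θ : X → ℝ) (W C : ℝ) (f : G → X → ℝ) :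
    Prop where
  face : ∀ p, θ p ≤ 0 → ∃ g, 1 ≤ f g p ∧ ∀ q, -1 < f g q → dist p q ≤ C
  far : ∀ g p, W ≤ θ p → f g p = -1

/-- **PART A**: a run on `{θ ≤ W}`; `B` is the drift, `f0` are the spectators, the inequalities are
tracked on `L`.  The colours are fixed before the state, `I` before `b`. -/
def ARun (n : ℕ) (s s' C c : ℝ) : Prop := ∃ W : ℝ, 0 < W ∧
  AllLen n fun _ _ _ X _ _ _ _ M0 => ∀ θ : X → ℝ, M0.Sm θ → (∀ p, M0.pre.gam θ θ p ≤ 1) →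
    IsCompact {p | θ p ≤ W} → ∃ (G : Type) (_ : Fintype G),
    ∀ (ι : Type) [Fintype ι] [DecidableEq ι] (M : Imm n ι X) (B : ι → X → ℝ) (J : Type)
      [Fintype J] (f0 : J → X → ℝ) (L : Set X), M.ch = M0.ch → Injective M.x →
      (∀ a, M.Sm (B a)) → M.pre.Tan B → (∀ j, M.Sm (f0 j)) → {p | θ p ≤ W} ⊆ L →
      (∀ f : X → ℝ, M.Sm f → ∀ p, θ p ≤ W → M.pre.gam f f p ≤ c * M0.pre.gam f f p) →
      (∀ p ∈ L, s + ∑ j, M.pre.gam (f0 j) (f0 j) p ≤ M.pre.Eb B p) → ∃ I : ℝ, ∀ b : ℝ,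
      ∃ (κ : Type) (_ : Fintype κ) (_ : DecidableEq κ) (M' : Imm n κ X) (B' : κ → X → ℝ)
        (f : G → X → ℝ), Same M M' {p | W ≤ θ p} ∧ Injective M'.x ∧ (∀ a, M.Sm (B' a)) ∧
        M'.pre.Tan B' ∧ (∀ g, M.Sm (f g)) ∧ Col θ W C f ∧
        (∀ h : X → ℝ, M.Sm h → ∀ p, θ p ≤ W → M'.pre.gam h h p ≤ c * M.pre.gam h h p) ∧
        ∀ p ∈ L, (∀ g, M'.pre.gam (f g) (f g) p ≤ I) ∧
          s' + ∑ j, M'.pre.gam (f0 j) (f0 j) p + b ^ 2 * ∑ g, M'.pre.gam (f g) (f g) p ≤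
            M'.pre.Eb B' p

/-- **separator**: the step for one extra colour, a multiple of `θ`; nothing changes on
`W ≤ |θ|`; `ψ` is the final phase of the extra colour. -/
def GSep (n : ℕ) : Prop := ∀ s : ℝ, 0 < s → ∃ W : ℝ, 0 < W ∧ ∀ D : ℕ, ∃ η0 : ℝ, 0 < η0 ∧
  ∀ η : ℝ, 0 < η → η ≤ η0 →
  ∀ (ι : Type) [Fintype ι] [DecidableEq ι] (Y : Type) [TopologicalSpace Y]
    [T2Space Y] [SecondCountableTopology Y] [MeasurableSpace Y] [BorelSpace Y] [CompactSpace Y]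
    (N : Imm n ι Y) (F θ : Y → ℝ) (C : Type) [Fintype C] (φ : C → Y → ℝ) (A : Set Y),
    Injective N.x → N.Sm F → N.Sm θ → (∀ c, N.Sm (φ c)) → Fintype.card C ≤ D → IsClosed A →
    {p | |θ p| ≤ W} ⊆ A → (∀ p ∈ A, N.pre.gam θ θ p ≤ 1) →
    (∀ p ∈ A, Pay N η φ (N.pre.EF F p - s) p) →
    ∃ (κ : Type) (_ : Fintype κ) (_ : DecidableEq κ) (y : κ → Y → ℝ) (a b : κ → ℝ) (F' ψ : Y → ℝ)
      (φ' : C → Y → ℝ), (∀ i, N.Sm (y i)) ∧ N.Sm F' ∧ Continuous ψ ∧ (∀ c, N.Sm (φ' c)) ∧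
      Shr φ φ' ∧ (∀ p, W ≤ θ p → (∀ i, y i p = a i) ∧ 1 ≤ ψ p ∧ ∀ c, φ' c p = φ c p) ∧
      (∀ p, θ p ≤ -W → (∀ i, y i p = b i) ∧ ψ p ≤ -1 ∧ ∀ c, φ' c p = φ c p) ∧
      (∀ p ∈ A, Cls (N.xt y) η φ' ((N.xt y).pre.EF F' p - s / 2) p) ∧
      ∀ p, |ψ p| < 1 → Few n (ev φ' p)

/-- **end points** of the relative path theorem -/
def GEnd (n : ℕ) : Prop := ∀ (D : ℕ) (s : ℝ), 0 < s →
  ∃ η : ℝ, 0 < η ∧ ∀ (ι : Type) [Fintype ι] [DecidableEq ι] (Y : Type) [TopologicalSpace Y]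
    [T2Space Y] [SecondCountableTopology Y] [MeasurableSpace Y] [BorelSpace Y] [CompactSpace Y]
    (N : Imm n ι Y) (F : Y → ℝ) (C : Type) [Fintype C] (φ : C → Y → ℝ) (A : Set Y),
    Injective N.x → N.Sm F → (∀ c, N.Sm (φ c)) → Fintype.card C ≤ D → IsClosed A →
    (∀ p ∈ A, Cls N η φ (N.pre.EF F p - s) p) → (∀ p ∈ A, p ∉ interior A → Few n (ev φ p)) →
    ∃ φ' : C → Y → ℝ, (∀ c, Continuous (φ' c)) ∧ Shr φ φ' ∧ ∀ p ∈ A, Few n (ev φ' p)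

/-! ### the same for forms on the open manifold -/

/-- embedded, with a form inequality -/
structure Fm [MeasurableSpace X] (M : Imm d ι X) (V : X → ℝ) : Prop where
  inj : Injective M.x
  cont : Continuous V
  form : M.Form V

/-- a run -/
def FRun (n : ℕ) (s s' C c : ℝ) : Prop := ∃ W : ℝ, 1 < W ∧
  AllLen n fun _ _ _ X _ _ _ _ M0 => ∀ θ : X → ℝ, M0.Sm θ → (∀ p, M0.pre.gam θ θ p ≤ 1) →
    IsCompact {p | θ p ≤ W} → ∃ (G : Type) (_ : Fintype G),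
    ∀ (ι : Type) [Fintype ι] [DecidableEq ι] (M : Imm n ι X) (V : X → ℝ) (J : Type)
      [Fintype J] (f0 : J → X → ℝ), M.ch = M0.ch → Fm M V → (∀ j, M.Sm (f0 j)) →
      (∀ f : X → ℝ, M.Sm f → ∀ p, θ p ≤ W → M.pre.gam f f p ≤ c * M0.pre.gam f f p) →
      (∀ p, θ p ≤ W → s + ∑ j, M.pre.gam (f0 j) (f0 j) p ≤ V p) → ∃ I : ℝ, ∀ b : ℝ,
      ∃ (κ : Type) (_ : Fintype κ) (_ : DecidableEq κ) (M' : Imm n κ X) (V' : X → ℝ)
        (f : G → X → ℝ), Same M M' {p | W ≤ θ p} ∧ Fm M' V' ∧ (∀ p, W ≤ θ p → V' p = V p) ∧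
        (∀ g, M.Sm (f g)) ∧ Col θ (W - 1) C f ∧
        (∀ h : X → ℝ, M.Sm h → ∀ p, θ p ≤ W → M'.pre.gam h h p ≤ c * M.pre.gam h h p) ∧
        ∀ p, θ p ≤ W → (∀ g, M'.pre.gam (f g) (f g) p ≤ I) ∧
          s' + ∑ j, M'.pre.gam (f0 j) (f0 j) p + b ^ 2 * ∑ g, M'.pre.gam (f g) (f g) p ≤ V' p

/-- a separator -/
def FSep (n : ℕ) : Prop := ∀ s : ℝ, 0 < s → ∃ W : ℝ, 0 < W ∧ ∀ D : ℕ, ∃ η0 : ℝ, 0 < η0 ∧
  ∀ η : ℝ, 0 < η → η ≤ η0 →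
  ∀ (ι : Type) [Fintype ι] [DecidableEq ι] (X : Type) [TopologicalSpace X]
    [T2Space X] [SecondCountableTopology X] [MeasurableSpace X] [BorelSpace X]
    (M : Imm n ι X) (V θ : X → ℝ) (C : Type) [Fintype C] (φ : C → X → ℝ),
    Fm M V → M.Sm θ → (∀ c, M.Sm (φ c)) → Fintype.card C ≤ D → IsCompact {p | θ p ≤ W} →
    (∀ p, |θ p| ≤ W → M.pre.gam θ θ p ≤ 1 ∧ Pay M η φ (V p - s) p) →
    ∃ (κ : Type) (_ : Fintype κ) (_ : DecidableEq κ) (M' : Imm n κ X) (V' ψ : X → ℝ)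
      (φ' : C → X → ℝ), Same M M' {p | W ≤ |θ p|} ∧ Fm M' V' ∧ Continuous ψ ∧
      (∀ c, M.Sm (φ' c)) ∧ Shr φ φ' ∧
      (∀ p, W ≤ |θ p| → V' p = V p ∧ ∀ c, φ' c =ᶠ[𝓝 p] φ c) ∧
      (∀ p, W ≤ θ p → ψ p = 2) ∧ (∀ p, θ p ≤ -W → ψ p = -2) ∧
      (∀ p, |θ p| ≤ W → Cls M' η φ' (V' p - s / 4) p) ∧ ∀ p, |ψ p| ≤ 1 → Few n (ev φ' p)

/-- a piece -/
def FEnd (n : ℕ) : Prop := ∀ (D : ℕ) (s : ℝ), 0 < s →
  ∃ η : ℝ, 0 < η ∧ ∀ (ι : Type) [Fintype ι] [DecidableEq ι] (X : Type) [TopologicalSpace X]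
    [T2Space X] [SecondCountableTopology X] [MeasurableSpace X] [BorelSpace X]
    (M : Imm n ι X) (V : X → ℝ) (C : Type) [Fintype C] (φ : C → X → ℝ) (A : Set X),
    Fm M V → (∀ c, M.Sm (φ c)) → Fintype.card C ≤ D → IsCompact A →
    (∀ p ∈ A, Cls M η φ (V p - s) p) → (∀ p ∈ A, p ∉ interior A → Few n (ev φ p)) →
    ∃ φ' : C → X → ℝ, (∀ c, ContinuousOn (φ' c) A) ∧ (∀ c, ∀ p ∈ A, Shr1 (φ c p) (φ' c p)) ∧
      ∀ p ∈ A, Few n (ev φ' p)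

/-! ### leaves -/

/-- T3: the profile that turns colours into phases -/
def ProfStmt : Prop := ∀ η I : ℝ, 0 < η → ∃ (b : ℝ) (Θ : ℝ → ℝ), 0 < b ∧ ContDiff ℝ ∞ Θ ∧
  (∀ t, |Θ t| ≤ 2) ∧ (∀ t, 1 ≤ t → Θ t = 2) ∧ (∀ t, t ≤ -1 → Θ t = -2) ∧
  ∀ t g : ℝ, 0 ≤ g → g ^ 2 ≤ I → |Θ t| ≤ π / 2 →
    |deriv Θ t| * g ≤ b / 2 * g * cos (Θ t) + √η * sin (Θ t) ^ 2 / 16

/-- T7: gluing the pieces along the separators -/
def GlueStmt : Prop := ∀ (X : Type) [MetricSpace X] (k : ℕ) (C : ℝ) (κ : Type) (φ : κ → X → ℝ)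
  (ψ : ℕ → X → ℝ) (Φ : ℕ → κ → X → ℝ), (∀ c, Continuous (φ c)) → (∀ i, Continuous (ψ i)) →
  (LocallyFinite fun c => {p | -(π / 2) ≤ φ c p}) →
  (∀ p, ∃ c, π / 2 < φ c p ∧ ∀ q, -(π / 2) ≤ φ c q → dist p q ≤ C) →
  (∀ p, 0 < ψ 0 p) → (LocallyFinite fun i => {p | 0 ≤ ψ i p}) →
  (∀ i j p, i < j → 0 ≤ ψ j p → 0 < ψ i p) →
  (∀ i p (S : Finset κ), |ψ i p| ≤ 1 → (∀ c ∈ S, |φ c p| ≤ π / 2) → S.card ≤ k) →
  (∀ i c, ContinuousOn (Φ i c) {p | 0 ≤ ψ i p ∧ ψ (i + 1) p ≤ 0}) →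
  (∀ i p, 0 ≤ ψ i p → ψ (i + 1) p ≤ 0 → (∀ c, Shr1 (φ c p) (Φ i c p)) ∧
    ∀ S : Finset κ, (∀ c ∈ S, |Φ i c p| ≤ π / 2) → S.card ≤ k) → Cov X k C

/-- T2 -/
def GStmt : Prop := G.GStmt → ∀ n : ℕ, 2 ≤ n → GSep n ∧ GEnd n

/-- T4 -/
def FRunStmt : Prop := ∀ (n : ℕ) (s s' t t' C c : ℝ), 1 ≤ c → s < t → t' < s' → t' < t →
  ARun n s s' C c → FRun n t t' C c

/-- T5 -/
def FSepStmt : Prop := G.CarStmt → ∀ n : ℕ, GSep n → FSep n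

/-- T6 -/
def FEndStmt : Prop := G.CarStmt → ∀ n : ℕ, GEnd n → FEnd n

/-- T8: **TOP** -/
def TopStmt : Prop := ∀ (n : ℕ) (t0 t1 C c : ℝ), 2 ≤ n → 1 ≤ c → 0 < t0 → t0 < 1 → 0 < t1 →
  FRun n 1 t0 C c → FRun n t0 t1 C c → FSep n → FEnd n → Width n C

/-- the two runs -/
def Runs (n : ℕ) (C : ℝ) : Prop := ∃ s0 s1 s1' s2 c : ℝ, 1 ≤ c ∧ s0 < 1 ∧ s1' < s1 ∧ s1' < 1 ∧
  0 < s1' ∧ 0 < s2 ∧ ARun n s0 s1 C c ∧ ARun n s1' s2 C c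

theorem width_of (h2 : GStmt) (h4 : FRunStmt) (h5 : FSepStmt) (h6 : FEndStmt)
    (h8 : TopStmt) (hC : G.CarStmt) (hG : G.GStmt) {n : ℕ} (hn : 2 ≤ n) {C : ℝ} (h : Runs n C) :
    Width n C := by
  obtain ⟨s0, s1, s1', s2, c, hc, a0, a1, a2, a3, a4, r1, r2⟩ := h
  have b1 : s1' < min s1 1 := lt_min a1 a2
  have b2 : 0 < min s2 s1' := lt_min a4 a3
  have b3 := min_le_left s1 1
  have b4 := min_le_right s1 1
  have b5 := min_le_left s2 s1'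
  have b6 := min_le_right s2 s1'
  exact h8 n ((s1' + min s1 1) / 2) (min s2 s1' / 2) C c hn hc (by linarith) (by linarith)
    (by linarith) (h4 n s0 s1 _ _ C c hc a0 (by linarith) (by linarith) r1)
    (h4 n s1' s2 _ _ C c hc (by linarith) (by linarith) (by linarith) r2)
    (h5 hC n (h2 hG n hn).1) (h6 hC n (h2 hG n hn).2)

end Crest.Agent.N228.T

end
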