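import Crest.Agent.N228.T.Defs
import Crest.Agent.N228.G.Basic

/-!
# Row 228, the top layer (helper92): assembly of the pieces

`r` is the radial function in units of the period; separator `k` lives in `|r - k| ≤ a`, the
colours `G k` in `|r - k| < 1 / 2`, the colours `H k` in `k + a < r < k + 1 - a`.
-/

set_option autoImplicit false
open Set Filter Topology Function Real

noncomputable section

namespace Crest.Agent.N228.T
open Crest.Agent.N228.G (Few Shr Shr1 ev fin mem_fin)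

theorem locFin_band {X κ : Type} [TopologicalSpace X] {r : X → ℝ} (hr : Continuous r)
    {A : κ → Set X} (l : κ → ℕ) (hl : ∀ k, {c | l c = k}.Finite)
    (h : ∀ c, ∀ p ∈ A c, (l c : ℝ) ≤ r p + 1) : LocallyFinite A := fun p => by
  refine ⟨{q | r q < r p + 1}, (isOpen_lt hr continuous_const).mem_nhds (lt_add_one (r p)), ?_⟩
  obtain ⟨N, hN⟩ := exists_nat_gt (r p + 2)
  refine ((finite_lt_nat N).biUnion fun k _ => hl k).subset fun c ⟨q, h1, h2⟩ => ?_
  have h3 : (l c : ℝ) < N := by linarith [h c q h1, mem_setOf_eq ▸ h2]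
  exact mem_biUnion (x := l c) (by exact_mod_cast h3) rfl

/-- the colours of piece `k` -/
abbrev Pc (G H : ℕ → Type) (k : ℕ) : Type := G k ⊕ H k ⊕ G (k + 1)

/-- the phases of piece `k` -/
def pc {X : Type} {G H : ℕ → Type} (φ : ∀ k, G k → X → ℝ) (χ : ∀ k, H k → X → ℝ) (k : ℕ) :
    Pc G H k → X → ℝ := Sum.elim (φ k) (Sum.elim (χ k) (φ (k + 1)))

theorem asm (hG : GlueStmt) {X : Type} [MetricSpace X] {n : ℕ} {C a : ℝ}
    {G H : ℕ → Type} [∀ k, Fintype (G k)] [∀ k, Fintype (H k)] {r : X → ℝ}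
    {φ : ∀ k, G k → X → ℝ} {χ : ∀ k, H k → X → ℝ} {ψ : ℕ → X → ℝ}
    {Φ : ∀ k, Pc G H k → X → ℝ} (a0 : 0 ≤ a) (ha : a < 1 / 2) (hr : Continuous r)
    (r0 : ∀ p, a ≤ r p) (cφ : ∀ k g, Continuous (φ k g)) (cχ : ∀ k g, Continuous (χ k g))
    (cψ : ∀ k, Continuous (ψ k))
    (lφ : ∀ k g p, -(π / 2) ≤ φ k g p → |r p - k| < 1 / 2)
    (lχ : ∀ k g p, -(π / 2) ≤ χ k g p → k + a < r p ∧ r p < k + 1 - a)
    (ψ1 : ∀ (k : ℕ) p, k + a ≤ r p → ψ k p = 2) (ψ2 : ∀ (k : ℕ) p, r p ≤ k - a → ψ k p = -2)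
    (face : ∀ p, (∃ k g, π / 2 < φ k g p ∧ ∀ q, -(π / 2) ≤ φ k g q → dist p q ≤ C) ∨
      ∃ k g, π / 2 < χ k g p ∧ ∀ q, -(π / 2) ≤ χ k g q → dist p q ≤ C)
    (few : ∀ k p, |ψ k p| ≤ 1 → Few n (ev (φ k) p))
    (cΦ : ∀ k c, ContinuousOn (Φ k c) {p | 0 ≤ ψ k p ∧ ψ (k + 1) p ≤ 0})
    (hΦ : ∀ k p, 0 ≤ ψ k p → ψ (k + 1) p ≤ 0 →
      (∀ c, Shr1 (pc φ χ k c p) (Φ k c p)) ∧ Few n (ev (Φ k) p)) : Cov X (n - 2) C := by
  classical
  let κ := Σ k, G k ⊕ H k
  let ϕ : κ → X → ℝ := fun c => Sum.elim (φ c.1) (χ c.1) c.2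
  let em : ∀ k, Pc G H k → κ := fun k =>
    Sum.elim (fun g => ⟨k, .inl g⟩) (Sum.elim (fun g => ⟨k, .inr g⟩) fun g => ⟨k + 1, .inl g⟩)
  have hem : ∀ k, Injective (em k) := by
    rintro k (g | g | g) (g' | g' | g') h <;> simp only [em, κ, Sum.elim_inl, Sum.elim_inr,
      Sigma.mk.inj_iff, heq_eq_eq, true_and, Sum.inl.injEq, Sum.inr.injEq, reduceCtorEq] at h ⊢ <;>
      first | exact h | omega
  have hϕ : ∀ k c, ϕ (em k c) = pc φ χ k c := by rintro k (g | g | g) <;> rfl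
  have cϕ : ∀ c, Continuous (ϕ c) := by
    rintro ⟨k, g | g⟩
    exacts [cφ k g, cχ k g]
  have l1 : ∀ (k : ℕ) p, 0 ≤ ψ k p → k - a < r p := fun k p h =>
    not_le.1 fun h' => by linarith [ψ2 k p h']
  have l2 : ∀ (k : ℕ) p, ψ k p ≤ 1 → r p < k + a := fun k p h =>
    not_le.1 fun h' => by linarith [ψ1 k p h']
  have l3 : ∀ (k : ℕ) p, -1 ≤ ψ k p → k - a < r p := fun k p h =>
    not_le.1 fun h' => by linarith [ψ2 k p h']
  have cast1 : ∀ {i j : ℕ}, (i : ℝ) < j + 1 → i ≤ j := fun h =>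
    Nat.lt_succ_iff.1 (by exact_mod_cast h)
  refine hG X (n - 2) C κ ϕ ψ (fun k => extend (em k) (Φ k) ϕ) cϕ cψ
    (locFin_band hr Sigma.fst (fun k => ?_) ?_) (fun p => ?_)
    (fun p => by rw [ψ1 0 p (by simpa using r0 p)]; norm_num)
    (locFin_band hr id (fun k => finite_singleton k) fun k p hp => by
      linarith [l1 k p hp, show ((id k : ℕ) : ℝ) = k from rfl])
    (fun i j p hij hj => ?_) (fun i p S hi hS => ?_) (fun i c => ?_)
    fun i p h1 h2 => ⟨fun c => ?_, fun S hS => ?_⟩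
  · exact (finite_range (Sigma.mk k)).subset fun ⟨j, c⟩ h => by
      obtain rfl : j = k := h
      exact ⟨c, rfl⟩
  · rintro ⟨k, g | g⟩ p hp
    · linarith [(abs_lt.1 (lφ k g p hp)).1]
    · linarith [(lχ k g p hp).1]
  · rcases face p with ⟨k, g, h⟩ | ⟨k, g, h⟩
    exacts [⟨⟨k, .inl g⟩, h⟩, ⟨⟨k, .inr g⟩, h⟩]
  · have : (i : ℝ) + 1 ≤ j := by exact_mod_cast hij
    rw [ψ1 i p (by linarith [l1 j p hj])]
    norm_num
  · have h1 := l2 i p (abs_le.1 hi).2
    have h2 := l3 i p (abs_le.1 hi).1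
    have h3 : S ⊆ (fin (ev (φ i) p)).image fun g => (⟨i, .inl g⟩ : κ) := by
      rintro ⟨k, g | g⟩ hc
      · have h4 := abs_lt.1 (lφ k g p (abs_le.1 (hS _ hc)).1)
        obtain rfl : k = i := le_antisymm (cast1 (by linarith)) (cast1 (by linarith))
        exact Finset.mem_image_of_mem _ (mem_fin.2 (hS _ hc))
      · have h4 := lχ k g p (abs_le.1 (hS _ hc)).1
        have h5 : k < i := by exact_mod_cast (show (k : ℝ) < i by linarith)
        have h6 : i < k + 1 := by exact_mod_cast (show (i : ℝ) < k + 1 by linarith)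
        omega
    have h7 := (Finset.card_le_card h3).trans Finset.card_image_le
    have h8 : _ + 2 ≤ n := few i p hi
    omega
  · by_cases h : ∃ b, em i b = c
    · obtain ⟨b, rfl⟩ := h
      rw [(hem i).extend_apply]
      exact cΦ i b
    · rw [extend_apply' _ _ _ h]
      exact (cϕ c).continuousOn
  · by_cases h : ∃ b, em i b = c
    · obtain ⟨b, rfl⟩ := h
      rw [(hem i).extend_apply, hϕ]
      exact (hΦ i p h1 h2).1 b
    · rw [extend_apply' _ _ _ h]
      exact Shr1.refl _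
  · have h3 := l1 i p h1
    have h4 := l2 (i + 1) p (by linarith)
    push_cast at h4
    have h5 : S ⊆ (fin (ev (Φ i) p)).image (em i) := fun c hc => by
      have h6 := hS c hc
      by_cases h : ∃ b, em i b = c
      · obtain ⟨b, rfl⟩ := h
        rw [(hem i).extend_apply] at h6
        exact Finset.mem_image_of_mem _ (mem_fin.2 h6)
      · rw [extend_apply' _ _ _ h] at h6
        exfalso
        obtain ⟨k, g | g⟩ := c
        · have h7 := abs_lt.1 (lφ k g p (abs_le.1 h6).1)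
          have h8 : i ≤ k := cast1 (by linarith)
          have h9 : k ≤ i + 1 := cast1 (by push_cast; linarith)
          rcases h8.eq_or_lt with rfl | h8
          · exact h ⟨.inl g, rfl⟩
          · obtain rfl : k = i + 1 := by omega
            exact h ⟨.inr (.inr g), rfl⟩
        · have h7 := lχ k g p (abs_le.1 h6).1
          obtain rfl : k = i := le_antisymm (cast1 (by linarith)) (cast1 (by linarith))
          exact h ⟨.inr (.inl g), rfl⟩
    have h7 := (Finset.card_le_card h5).trans Finset.card_image_le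
    have h8 : _ + 2 ≤ n := (hΦ i p h1 h2).2
    omega

end Crest.Agent.N228.T

end
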