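import Crest.Agent.N228.T.Defs
import Crest.Agent.N228.G.Basic
import Crest.Agent.N228.O.Pull

/-!
# Row 228, top layer: a piece on the open manifold (helper82)
-/

set_option autoImplicit false
open MeasureTheory Set Filter Topology Function Real

noncomputable section

namespace Crest.Agent.N228.T
open Crest.Agent.N222
open Crest.Agent.N228.G (Few Shr Shr1 ev)

/-- **leaf T6** -/
theorem fend : FEndStmt := by
  intro hC n hG D s hs
  obtain ⟨η, η0, h⟩ := hG D (s / 2) (half_pos hs)
  refine ⟨η, η0, fun ι _ _ X _ _ _ _ _ M V C _ φ A hM hφ hD hA hc hb => ?_⟩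
  obtain ⟨ι', _, _, Y, _, _, _, _, _, N, _, hN, e, L, c, F, h1, h2, h3, h4⟩ :=
    hC n ι X M hM.inj V A (s / 2) hM.cont hM.form hA (half_pos hs)
  have hE : Emb M N e := ⟨L, c, h2⟩
  choose ψ hψ hψ' using fun b => hE.push_near hA h1 (hφ b)
  have h5 : ∀ p ∈ A, ev ψ (e p) = ev φ p := fun p hp =>
    funext fun b => (hψ' b p hp).eq_of_nhds.symm
  obtain ⟨χ, h6, h7, h8⟩ := h ι' Y N F C ψ (e '' A) hN h3 hψ hD
    (hA.image_of_continuousOn (e.continuousOn.mono h1)).isClosed
    (forall_mem_image.2 fun p hp => by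
      have h6 : G.gr N ψ (e p) = G.gr M φ p :=
        funext fun b => (hE.norm_grad (h1 hp) (hψ' b p hp)).symm
      rw [Cls, h5 p hp, h6]
      exact G.Good.monoV (hc p hp) (by linarith [h4 p (h1 hp)]))
    (forall_mem_image.2 fun p hp hi => h5 p hp ▸ hb p hp fun hp' => hi
      (interior_maximal (image_mono interior_subset) (e.isOpen_image_of_subset_source
        isOpen_interior (interior_subset.trans h1)) (mem_image_of_mem e hp')))
  exact ⟨fun b p => χ b (e p), fun b => (h6 b).comp_continuousOn (e.continuousOn.mono h1),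
    fun b p hp => (hψ' b p hp).eq_of_nhds ▸ h7 b (e p), fun p hp => h8 _ (mem_image_of_mem e hp)⟩

end Crest.Agent.N228.T
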