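import Crest.Agent.N228.T.Defs
import Crest.Agent.N228.O.Pull
import Crest.Agent.N228.G.Basic

/-! # Row 228, the top layer (helper92): `FEndStmt` -/

set_option autoImplicit false
open Set Filter Topology Function

namespace Crest.Agent.N228.T
open Crest.Agent.N222
open Crest.Agent.N228.G (Few Shr Shr1 ev gr)

theorem fend' : FEndStmt := by
  intro hC n hG D s hs
  obtain ⟨η, hη, H⟩ := hG D (s / 2) (half_pos hs)
  refine ⟨η, hη, fun ι _ _ X _ _ _ _ _ M V C _ φ A hM hφ hD hA hc hb => ?_⟩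
  obtain ⟨ι', _, _, Y, _, _, _, _, _, N, _, hN, e, L, c, F, hAe, hx, hF, hV⟩ :=
    hC n ι X M hM.inj V A (s / 2) hM.cont hM.form hA (half_pos hs)
  have he : Emb M N e := ⟨L, c, hx⟩
  choose ψ hψ h1 using fun b => he.push_near hA hAe (hφ b)
  have e1 : ∀ p ∈ A, ev ψ (e p) = ev φ p := fun p hp =>
    funext fun b => (h1 b p hp).self_of_nhds.symm
  obtain ⟨ψ', c1, c2, c3⟩ := H ι' Y N F C ψ (e '' A) hN hF hψ hD
    (hA.image_of_continuousOn (e.continuousOn.mono hAe)).isClosed
    (by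
      rintro _ ⟨p, hp, rfl⟩
      have e2 : gr N ψ (e p) = gr M φ p :=
        funext fun b => (he.norm_grad (hAe hp) (h1 b p hp)).symm
      rw [Cls, e1 p hp, e2]
      exact G.Good.monoV (hc p hp) (by linarith [hV p (hAe hp)]))
    (by
      rintro _ ⟨p, hp, rfl⟩ h
      rw [e1 p hp]
      exact hb p hp fun h' => h (mem_interior_iff_mem_nhds.2
        (e.image_mem_nhds (hAe hp) (mem_interior_iff_mem_nhds.1 h'))))
  refine ⟨fun b p => ψ' b (e p), fun b => (c1 b).comp_continuousOn (e.continuousOn.mono hAe),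
    fun b p hp => ?_, fun p hp => c3 _ (mem_image_of_mem e hp)⟩
  rw [(h1 b p hp).self_of_nhds]
  exact c2 b (e p)

end Crest.Agent.N228.T
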