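import Crest.Agent.N228.T.Defs
import Crest.Agent.N228.O.Pull
import Crest.Agent.N222.A.Defs

/-!
# Row 228, the top layer: a run in the language of forms (helper37)
-/

set_option autoImplicit false
set_option linter.unusedSectionVars false
open MeasureTheory Set Filter Topology Function Real
open scoped ContDiff

noncomputable section

namespace Crest.Agent.N228.T
open Crest.Agent.N222
open Crest.Agent.N222.A (cut cc cut_deriv_zero abs_deriv_cut_le one_le_cc)

namespace FRunH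

variable {d : ℕ} {ι : Type} [Fintype ι] [DecidableEq ι] {X : Type} [TopologicalSpace X]

/-- the cut-off: `0` on `θ ≤ a`, `1` on `a + R ≤ θ` -/
def kc (θ : X → ℝ) (a R : ℝ) (p : X) : ℝ := cut ((θ p - a) / R)

theorem contDiff_k (a R : ℝ) : ContDiff ℝ ∞ fun t : ℝ => cut ((t - a) / R) :=
  Real.smoothTransition.contDiff.comp ((contDiff_id.sub contDiff_const).div_const R)

theorem sm_kc {M : Imm d ι X} {θ : X → ℝ} (hθ : M.Sm θ) (a R : ℝ) : M.Sm (kc θ a R) :=
  hθ.comp (contDiff_k a R)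

theorem gam_kc {M : Imm d ι X} {θ : X → ℝ} (hθ : M.Sm θ) (a R : ℝ) (p : X) :
    M.pre.gam (kc θ a R) (kc θ a R) p =
      (deriv cut ((θ p - a) / R) / R) ^ 2 * M.pre.gam θ θ p := by
  have h1 : HasDerivAt cut (deriv cut ((θ p - a) / R)) ((θ p - a) / R) :=
    ((Real.smoothTransition.contDiff (n := 1)).differentiable (by simp) _).hasDerivAt
  have h2 : HasDerivAt (fun t : ℝ => (t - a) / R) (1 / R) (θ p) :=
    ((hasDerivAt_id' (θ p)).sub_const a).div_const R
  have hg : HasDerivAt (fun t : ℝ => cut ((t - a) / R)) (deriv cut ((θ p - a) / R) * (1 / R))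
      (θ p) := HasDerivAt.comp (h₂ := cut) (h := fun t : ℝ => (t - a) / R) (θ p) h1 h2
  have h3 : kc θ a R = fun q => (fun t : ℝ => cut ((t - a) / R)) (θ q) := rfl
  rw [h3]
  simp only [Imm.gam_apply, Imm.D_comp (hθ.diffAt p) hg, Finset.mul_sum]
  exact Finset.sum_congr rfl fun _ _ => by ring

theorem kc_zero {θ : X → ℝ} {a R : ℝ} (hR : 0 < R) {p : X} (h : θ p ≤ a) : kc θ a R p = 0 :=
  Real.smoothTransition.zero_of_nonpos (div_nonpos_of_nonpos_of_nonneg (by linarith) hR.le)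

theorem kc_one {θ : X → ℝ} {a R : ℝ} (hR : 0 < R) {p : X} (h : a + R ≤ θ p) : kc θ a R p = 1 :=
  Real.smoothTransition.one_of_one_le ((one_le_div hR).2 (by linarith))

theorem gam_kc_zero {M : Imm d ι X} {θ : X → ℝ} (hθ : M.Sm θ) {a R : ℝ} (hR : 0 < R) {p : X}
    (h : θ p ≤ a ∨ a + R ≤ θ p) : M.pre.gam (kc θ a R) (kc θ a R) p = 0 := by
  rw [gam_kc hθ, cut_deriv_zero (h.imp
    (fun h => div_nonpos_of_nonpos_of_nonneg (by linarith) hR.le)
    fun h => (one_le_div hR).2 (by linarith))]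
  simp

theorem gam_kc_le {M : Imm d ι X} {θ : X → ℝ} (hθ : M.Sm θ) (a : ℝ) {R c : ℝ} {p : X}
    (h : M.pre.gam θ θ p ≤ c) : M.pre.gam (kc θ a R) (kc θ a R) p ≤ cc ^ 2 * c / R ^ 2 := by
  have h1 : deriv cut ((θ p - a) / R) ^ 2 ≤ cc ^ 2 := by
    rw [← sq_abs]
    exact pow_le_pow_left₀ (abs_nonneg _) (abs_deriv_cut_le _) 2
  rw [gam_kc hθ, div_pow, div_mul_eq_mul_div]
  exact div_le_div_of_nonneg_right
    (mul_le_mul h1 h (Imm.gam_self_nonneg _ _) (sq_nonneg _)) (sq_nonneg _)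

theorem tsupport_kc {θ : X → ℝ} (hθ : Continuous θ) {a R : ℝ} (hR : 0 < R) :
    tsupport (kc θ a R) ⊆ {p | a ≤ θ p} :=
  closure_minimal (fun _ hp => not_lt.1 fun h => hp (kc_zero hR h.le))
    (isClosed_le continuous_const hθ)

theorem gam_zero {M : Imm d ι X} {f : X → ℝ} {p : X} {v : ℝ} (h : f =ᶠ[𝓝 p] fun _ => v) :
    M.pre.gam f f p = 0 := by
  rw [Imm.gam_congr h h]
  simp only [Imm.gam_apply, Imm.D_const, mul_zero, Finset.sum_const_zero]

/-- the glued potential -/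
def Vg (M : Imm d ι X) (k V1 V2 : X → ℝ) (p : X) : ℝ :=
  cos (π / 2 * k p) ^ 2 * V1 p + sin (π / 2 * k p) ^ 2 * V2 p - π ^ 2 * M.pre.gam k k p

theorem continuous_Vg {M : Imm d ι X} {k V1 V2 : X → ℝ} (hk : M.Sm k) (h1 : Continuous V1)
    (h2 : Continuous V2) : Continuous (Vg M k V1 V2) := by
  have := hk.continuous
  have := (hk.gam hk).continuous
  unfold Vg
  fun_prop

theorem Vg_ge {M : Imm d ι X} {k V1 V2 : X → ℝ} {p : X} {v l : ℝ} (h1 : v + l ≤ V1 p)
    (h2 : v + l ≤ V2 p) (h3 : π ^ 2 * M.pre.gam k k p ≤ l) : v ≤ Vg M k V1 V2 p := by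
  have e := cos_sq_add_sin_sq (π / 2 * k p)
  have a1 := mul_le_mul_of_nonneg_left h1 (sq_nonneg (cos (π / 2 * k p)))
  have a2 := mul_le_mul_of_nonneg_left h2 (sq_nonneg (sin (π / 2 * k p)))
  have a3 : cos (π / 2 * k p) ^ 2 * (v + l) + sin (π / 2 * k p) ^ 2 * (v + l) = v + l := by
    rw [← add_mul, e, one_mul]
  unfold Vg
  linarith

theorem exists_R {c l : ℝ} (hc : 0 ≤ c) (hl : 0 < l) :
    ∃ R : ℝ, 1 ≤ R ∧ π ^ 2 * (cc ^ 2 * c / R ^ 2) ≤ l := by
  have h0 : 0 ≤ π ^ 2 * (cc ^ 2 * c) / l := by positivity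
  refine ⟨1 + π ^ 2 * (cc ^ 2 * c) / l, by linarith, ?_⟩
  rw [← mul_div_assoc, div_le_iff₀ (by positivity)]
  have h1 : π ^ 2 * (cc ^ 2 * c) = l * (π ^ 2 * (cc ^ 2 * c) / l) := by field_simp
  generalize π ^ 2 * (cc ^ 2 * c) / l = u at h0 h1
  rw [h1]
  exact mul_le_mul_of_nonneg_left (by nlinarith) hl.le

end FRunH

open FRunH

theorem frun : FRunStmt := by
  rintro n s s' t t' C c hc hst hts htt ⟨W0, hW0, hA⟩
  have hl : 0 < min (s' - t') (t - t') := lt_min (by linarith) (by linarith)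
  have hl1 := min_le_left (s' - t') (t - t')
  have hl2 := min_le_right (s' - t') (t - t')
  obtain ⟨R, hR, hRl⟩ := exists_R (zero_le_one.trans hc) hl
  have hR0 : 0 < R := by linarith
  refine ⟨W0 + R + 2, by linarith, ?_⟩
  intro ι0 _ _ X _ _ _ _ _ M0 hinj hlen θ hθ0 hθ1 hK
  have hθc := hθ0.continuous
  have hsub : {p | θ p ≤ W0} ⊆ {p | θ p ≤ W0 + R + 2} := fun p (hp : θ p ≤ W0) =>
    show θ p ≤ W0 + R + 2 by linarith
  obtain ⟨G, _, hG⟩ := hA ι0 X M0 hinj hlen θ hθ0 hθ1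
    (hK.of_isClosed_subset (isClosed_le hθc continuous_const) hsub)
  refine ⟨G, inferInstance, ?_⟩
  intro ι _ _ M V J _ f0 hch hV hf0 hcm hlow
  have hθ : M.Sm θ := by rw [Imm.Sm, hch]; exact hθ0
  obtain ⟨F, hF, hFV⟩ := exists_weight hV.cont hV.form hK (δ := t - s) (by linarith)
  obtain ⟨I, hI⟩ := hG ι M (fun a => M.pre.D a F) J f0 {p | θ p ≤ W0 + R + 2} hch hV.inj hF.D
    (Imm.tan_D F) hf0 hsub (fun f hf p hp => hcm f hf p (hsub hp)) (fun p hp => by
      have h1 := hFV p hp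
      have h2 := hlow p hp
      have h3 : M.pre.Eb (fun a => M.pre.D a F) p = M.pre.EF F p := rfl
      linarith)
  refine ⟨I, fun b => ?_⟩
  obtain ⟨κ, _, _, M', B', f, hS, hinj', hB', hT', hf, hcol, hgam, hL⟩ := hI b
  have hB'' : ∀ a, M'.Sm (B' a) := fun a => hS.sm_iff.2 (hB' a)
  have hθ' : M'.Sm θ := hS.sm_iff.2 hθ
  have hE := Imm.sm_Eb hB''
  have hk := sm_kc hθ' (W0 + 1 / 2) R
  have hU : IsOpen {p | W0 < θ p} := isOpen_lt continuous_const hθc
  have hS' : Same M M' {p | W0 < θ p} := hS.mono fun p (hp : W0 < θ p) => hp.le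
  have hf1 : M'.Form (M'.pre.Eb B') := fun z hz =>
    drift n κ X M' B' _ hB'' hT' hE z hz fun _ _ => le_rfl
  refine ⟨κ, inferInstance, inferInstance, M', Vg M' (kc θ (W0 + 1 / 2) R) (M'.pre.Eb B') V, f,
    hS.mono fun p (hp : W0 + R + 2 ≤ θ p) => show W0 ≤ θ p by linarith,
    ⟨hinj', continuous_Vg hk hE.continuous hV.cont,
      Gr.ims_cut hk (Gr.formOn_of_form hf1 univ) (hS'.formOn hU (Gr.formOn_of_form hV.form _))
        (subset_univ _) ((tsupport_kc hθc hR0).trans fun p (hp : W0 + 1 / 2 ≤ θ p) =>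
          show W0 < θ p by linarith) hE.continuous hV.cont⟩,
    fun p hp => ?_, hf, ⟨hcol.face, fun g p hp => hcol.far g p (by linarith)⟩,
    fun h hh p hp => ?_, fun p hp => ⟨(hL p hp).1, ?_⟩⟩
  · have h1 : W0 + 1 / 2 + R ≤ θ p := by linarith
    rw [Vg, kc_one hR0 h1, gam_kc_zero hθ' hR0 (.inr h1)]
    simp
  · rcases le_total (θ p) W0 with h1 | h1
    · exact hgam h hh p h1
    · rw [hS.gam p h1 h h hh hh]
      exact le_mul_of_one_le_left (Imm.gam_self_nonneg _ _) hc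
  · have h2 := (hL p hp).2
    rcases le_or_gt (θ p) W0 with h1 | h1
    · have h3 : θ p ≤ W0 + 1 / 2 := by linarith
      simp only [Vg, kc_zero hR0 h3, gam_kc_zero hθ' hR0 (.inl h3), mul_zero, cos_zero, sin_zero]
      linarith
    · have h3 : ∀ g, M'.pre.gam (f g) (f g) p = 0 := fun g =>
        gam_zero (v := -1) (eventually_of_mem (hU.mem_nhds h1) fun q (hq : W0 < θ q) =>
          hcol.far g q hq.le)
      have h4 : M'.pre.gam θ θ p ≤ c := by
        rw [hS'.gam' h1]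
        exact (hcm θ hθ p hp).trans (mul_le_of_le_one_right (zero_le_one.trans hc) (hθ1 p))
      have h5 := hlow p hp
      simp only [← hS'.gam' h1] at h5
      simp only [h3, Finset.sum_const_zero, mul_zero, add_zero] at h2 ⊢
      refine Vg_ge (l := min (s' - t') (t - t')) (by linarith) (by linarith) ?_
      exact (mul_le_mul_of_nonneg_left (gam_kc_le hθ' _ h4) (sq_nonneg π)).trans hRl

end Crest.Agent.N228.T

end
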