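import Crest.Agent.N228.T.Defs
import Crest.Agent.N228.G.Basic
import Crest.Agent.N228.O.Pull
import Crest.Agent.N222.A.Basic

/-!
# Row 228, top layer: the separator on the open manifold (helper36), `fsep : FSepStmt`
-/

set_option autoImplicit false
set_option linter.unusedSectionVars false
open MeasureTheory Set Filter Topology Function Real
open scoped ContDiff

noncomputable section

namespace Crest.Agent.N228.T
open Crest.Agent.N222 Crest.Agent.N222.Imm
open Crest.Agent.N222.A (cut cc one_le_cc hasDerivAt_cut cut_deriv_zero cut_zero cut_one cut_nonneg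
  cut_le_one abs_deriv_cut_le)
open Crest.Agent.N228.G (Few Shr Shr1 ev gr)

namespace FS

/-- a slow even cut-off -/
theorem exists_kk {W0 ε : ℝ} (h0 : 0 < W0) (hε : 0 < ε) : ∃ (W1 : ℝ) (k : ℝ → ℝ), W0 < W1 ∧
    ContDiff ℝ ∞ k ∧ (∀ t, |t| ≤ W0 + 1 / 2 → k t = 0 ∧ deriv k t = 0) ∧
    (∀ t, W1 ≤ |t| → k t = 1 ∧ deriv k t = 0) ∧ ∀ t, π ^ 2 * deriv k t ^ 2 ≤ ε := by
  have hc := one_le_cc
  obtain ⟨R, hR, h1⟩ : ∃ R : ℝ, 0 < R ∧ π ^ 2 * (2 * cc / R) ^ 2 ≤ ε := by
    refine ⟨π * (2 * cc) / √ε, by positivity, le_of_eq ?_⟩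
    have := sqrt_pos.2 hε
    field_simp
    exact sq_sqrt hε.le
  have hd : ∀ t, deriv (fun t => cut ((t - (W0 + 1 / 2)) / R) + cut ((-t - (W0 + 1 / 2)) / R)) t
      = deriv cut ((t - (W0 + 1 / 2)) / R) * (1 / R)
        + deriv cut ((-t - (W0 + 1 / 2)) / R) * (-1 / R) := fun t =>
    (((hasDerivAt_cut _).comp t (((hasDerivAt_id t).sub_const _).div_const R)).add
      ((hasDerivAt_cut _).comp t (((hasDerivAt_neg t).sub_const _).div_const R))).deriv
  refine ⟨W0 + 1 / 2 + R, fun t => cut ((t - (W0 + 1 / 2)) / R) + cut ((-t - (W0 + 1 / 2)) / R),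
    by linarith, (smoothTransition.contDiff.comp (by fun_prop)).add
      (smoothTransition.contDiff.comp (by fun_prop)), fun t ht => ?_, fun t ht => ?_, fun t => ?_⟩
  · have a1 : (t - (W0 + 1 / 2)) / R ≤ 0 :=
      div_nonpos_of_nonpos_of_nonneg (by linarith [abs_le.1 ht]) hR.le
    have a2 : (-t - (W0 + 1 / 2)) / R ≤ 0 :=
      div_nonpos_of_nonpos_of_nonneg (by linarith [abs_le.1 ht]) hR.le
    rw [hd, cut_deriv_zero (.inl a1), cut_deriv_zero (.inl a2)]
    simp only [cut_zero a1, cut_zero a2, add_zero, zero_mul, and_self]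
  · rcases le_abs.1 ht with h | h
    · have a1 : 1 ≤ (t - (W0 + 1 / 2)) / R := (one_le_div hR).2 (by linarith)
      have a2 : (-t - (W0 + 1 / 2)) / R ≤ 0 := div_nonpos_of_nonpos_of_nonneg (by linarith) hR.le
      rw [hd, cut_deriv_zero (.inr a1), cut_deriv_zero (.inl a2)]
      simp only [cut_one a1, cut_zero a2, add_zero, zero_mul, and_self]
    · have a1 : (t - (W0 + 1 / 2)) / R ≤ 0 := div_nonpos_of_nonpos_of_nonneg (by linarith) hR.le
      have a2 : 1 ≤ (-t - (W0 + 1 / 2)) / R := (one_le_div hR).2 (by linarith)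
      rw [hd, cut_deriv_zero (.inl a1), cut_deriv_zero (.inr a2)]
      simp only [cut_zero a1, cut_one a2, zero_add, zero_mul, and_self]
  · refine (mul_le_mul_of_nonneg_left (sq_le_sq' ?_ ?_) (sq_nonneg π)).trans h1 <;> rw [hd]
    all_goals
      have a1 := abs_le.1 (abs_deriv_cut_le ((t - (W0 + 1 / 2)) / R))
      have a2 := abs_le.1 (abs_deriv_cut_le ((-t - (W0 + 1 / 2)) / R))
      have a3 : 0 < 1 / R := by positivity
      rw [neg_div, div_eq_mul_one_div (2 * cc)]
      nlinarith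

/-- the identity, truncated from above -/
theorem exists_h (W1 : ℝ) : ∃ h : ℝ → ℝ, ContDiff ℝ ∞ h ∧ (∀ t, t ≤ W1 + 1 → h t = t) ∧
    (∀ t, W1 + 2 ≤ t → h t = W1 + 2) ∧ ∀ t, W1 + 1 ≤ t → W1 + 1 ≤ h t := by
  refine ⟨fun t => t + (W1 + 2 - t) * cut (t - (W1 + 1)), contDiff_id.add
    ((contDiff_const.sub contDiff_id).mul (smoothTransition.contDiff.comp (by fun_prop))),
    fun t ht => ?_, fun t ht => ?_, fun t ht => ?_⟩
  · simp only [cut_zero (sub_nonpos.2 ht), mul_zero, add_zero]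
  · simp only [cut_one (show 1 ≤ t - (W1 + 1) by linarith), mul_one, add_sub_cancel]
  · nlinarith [cut_nonneg (t - (W1 + 1)), cut_le_one (t - (W1 + 1))]

variable {d : ℕ} {ι κ : Type} [Fintype ι] [DecidableEq ι] [Fintype κ] [DecidableEq κ] {X Y : Type}
  [TopologicalSpace X] [TopologicalSpace Y] {C : Type} {p : X}

theorem ev_eq {φ : C → X → ℝ} {φ' : C → Y → ℝ} {e : X → Y}
    (h : ∀ c, φ c =ᶠ[𝓝 p] fun q => φ' c (e q)) : ev φ p = ev φ' (e p) :=
  funext fun c => (h c).self_of_nhds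

theorem gr_emb {M : Imm d ι X} {N : Imm d κ Y} {e : OpenPartialHomeomorph X Y} (he : Emb M N e)
    (hp : p ∈ e.source) {φ : C → X → ℝ} {φ' : C → Y → ℝ}
    (h : ∀ c, φ c =ᶠ[𝓝 p] fun q => φ' c (e q)) : gr M φ p = gr N φ' (e p) :=
  funext fun c => he.norm_grad hp (h c)

theorem gr_same [T2Space X] [SecondCountableTopology X] {M : Imm d ι X} {M' : Imm d κ X} {U : Set X}
    (hs : Same M M' U) (hp : p ∈ U) {φ φ' : C → X → ℝ} (h : ∀ c, φ' c =ᶠ[𝓝 p] φ c) :
    gr M' φ' p = gr M φ p := funext fun c => by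
  rw [gr, gr, ← sq_eq_sq₀ (norm_nonneg _) (norm_nonneg _), ← gam_self_eq, ← gam_self_eq,
    hs.gam' hp, gam_congr (h c) (h c)]

theorem gam_comp {M : Imm d ι X} {w : X → ℝ} (hw : M.Sm w) {g : ℝ → ℝ} (hg : ContDiff ℝ ∞ g) :
    M.pre.gam (fun q => g (w q)) (fun q => g (w q)) p = deriv g (w p) ^ 2 * M.pre.gam w w p := by
  simp only [gam_apply, D_comp (hw.diffAt p) (hg.differentiable (by simp) _).hasDerivAt,
    Finset.mul_sum]
  exact Finset.sum_congr rfl fun _ _ => by ring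

/-- gluing a weight with the old potential -/
theorem glue [T2Space X] [SecondCountableTopology X] [MeasurableSpace X] [BorelSpace X]
    {M : Imm d ι X} {M' : Imm d κ X} {V θ F : X → ℝ} {W0 W1 ε : ℝ} {k : ℝ → ℝ}
    (hV : Fm M V) (hθ : M.Sm θ) (hF : M'.Sm F) (hs : Same M M' {p | W0 < |θ p|})
    (hk : ContDiff ℝ ∞ k) (k0 : ∀ t, |t| ≤ W0 + 1 / 2 → k t = 0 ∧ deriv k t = 0)
    (k1 : ∀ t, W1 ≤ |t| → k t = 1 ∧ deriv k t = 0) (k2 : ∀ t, π ^ 2 * deriv k t ^ 2 ≤ ε) :
    ∃ V' : X → ℝ, Continuous V' ∧ M'.Form V' ∧ (∀ p, |θ p| ≤ W0 → V' p = M'.pre.EF F p) ∧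
      (∀ p, W1 ≤ |θ p| → V' p = V p) ∧ ∀ p, W0 < |θ p| → M.pre.gam θ θ p ≤ 1 →
        min (M'.pre.EF F p) (V p) - ε ≤ V' p := by
  have hθ' := hs.sm_iff.2 hθ
  have hK := hθ'.comp hk
  have hc := hK.continuous
  have hE := hF.EF.continuous
  have hG := (hK.gam hK).continuous
  have hV' := hV.cont
  refine ⟨_, ?_, Gr.ims_cut hK (Gr.formOn_of_form (Gr.form_EF hF) univ)
    (hs.formOn (isOpen_lt continuous_const hθ.continuous.abs) (Gr.formOn_of_form hV.form _))
    (subset_univ _) ?_ hE hV', fun p hp => ?_, fun p hp => ?_, fun p hp h1 => ?_⟩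
  · exact (((continuous_cos.comp (continuous_const.mul hc)).pow 2).mul hE).add
      (((continuous_sin.comp (continuous_const.mul hc)).pow 2).mul hV') |>.sub
      (continuous_const.mul hG)
  · refine (closure_minimal (s := support fun p => k (θ p)) (t := {p | W0 + 1 / 2 ≤ |θ p|})
      (fun p hp => le_of_not_ge fun h => hp (k0 _ h).1)
      (isClosed_le continuous_const hθ.continuous.abs)).trans fun p hp => ?_
    exact lt_of_lt_of_le (show W0 < W0 + 1 / 2 by linarith) hp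
  · obtain ⟨a1, a2⟩ := k0 (θ p) (by linarith)
    simp [gam_comp hθ' hk, a1, a2]
  · obtain ⟨a1, a2⟩ := k1 (θ p) hp
    simp [gam_comp hθ' hk, a1, a2]
  · have a1 := (mul_le_of_le_one_right (by positivity) h1).trans (k2 (θ p))
    have a2 := mul_le_mul_of_nonneg_left (min_le_left (M'.pre.EF F p) (V p))
      (sq_nonneg (cos (π / 2 * k (θ p))))
    have a3 := mul_le_mul_of_nonneg_left (min_le_right (M'.pre.EF F p) (V p))
      (sq_nonneg (sin (π / 2 * k (θ p))))
    have a4 : cos (π / 2 * k (θ p)) ^ 2 * min (M'.pre.EF F p) (V p)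
        + sin (π / 2 * k (θ p)) ^ 2 * min (M'.pre.EF F p) (V p) = min (M'.pre.EF F p) (V p) := by
      rw [← add_mul, cos_sq_add_sin_sq, one_mul]
    simp only [gam_comp hθ' hk, hs.gam' hp]
    linarith

end FS

open FS

/-- **T5** -/
theorem fsep : FSepStmt := by
  intro hC n hG s hs
  replace hG := hG (3 * s / 4) (by positivity)
  obtain ⟨W0, hW0, hG⟩ := hG
  obtain ⟨W1, k, h01, hk, k0, k1, k2⟩ := exists_kk hW0 (show 0 < s / 8 by positivity)
  obtain ⟨h, hh, h1, h2, h3⟩ := exists_h W1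
  refine ⟨W1 + 2, by linarith, fun D => ?_⟩
  replace hG := hG D
  obtain ⟨η0, hη0, hG⟩ := hG
  refine ⟨η0, hη0, fun η e0 e1 ι _ _ X _ _ _ _ _ M V θ C _ φ hV hθ hφ hD hK hP => ?_⟩
  obtain ⟨ι', _, _, Y, _, _, _, _, _, N, _, hN, e, L, c, F, hKe, hx, hF, hVF⟩ :=
    hC n ι X M hV.inj V _ (s / 4) hV.cont hV.form hK (by positivity)
  have he : Emb M N e := ⟨L, c, hx⟩
  have θc := hθ.continuous
  have src : ∀ {p}, θ p ≤ W1 + 2 → p ∈ e.source := fun hp => hKe hp
  have hK1 : IsCompact {p | θ p ≤ W1} := hK.of_isClosed_subset (isClosed_le θc continuous_const)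
    fun p (hp : θ p ≤ W1) => show θ p ≤ W1 + 2 by linarith
  have hK1e : {p | θ p ≤ W1} ⊆ e.source := fun p (hp : θ p ≤ W1) => src (by linarith)
  obtain ⟨θY, sθ, t1, t2⟩ := he.push hK hKe (hθ.comp hh) (a := W1 + 2)
    fun p _ hp => h2 _ (le_of_not_ge hp)
  choose φY sφ hφY using fun c => he.push_near hK hKe (hφ c)
  have tle : ∀ p, θ p ≤ W1 + 1 → θY (e p) = θ p := fun p hp => by
    rw [t1 p (src (by linarith)), h1 _ hp]
  have tge : ∀ p ∈ e.source, W0 ≤ θ p → W0 ≤ θY (e p) := fun p hp h0 => by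
    rcases le_total (θ p) (W1 + 1) with a | a
    · rwa [tle p a]
    · rw [t1 p hp]
      linarith [h3 _ a]
  have hA : ∀ y, |θY y| ≤ W1 → ∃ p, |θ p| ≤ W1 ∧ e p = y := fun y hy => by
    have a1 := (abs_le.1 hy).2
    obtain ⟨p, hp, rfl⟩ : y ∈ e '' {p | θ p ≤ W1 + 2} := by_contra fun a => by
      linarith [t2 y a]
    rcases le_total (θ p) (W1 + 1) with a | a
    · exact ⟨p, tle p a ▸ hy, rfl⟩
    · linarith [h3 _ a, t1 p (hKe hp)]
  obtain ⟨κ, _, _, y, a, b, F', ψ, φ', sy, sF', ψc, sφ', hshr, up, dn, cls, few⟩ :=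
    hG η e0 e1 ι' Y N F θY C φY {y | |θY y| ≤ W1} hN hF sθ sφ hD
      (isClosed_le sθ.continuous.abs continuous_const)
      (fun y (hy : |θY y| ≤ W0) => hy.trans h01.le) (fun y hy => by
        obtain ⟨p, hp, rfl⟩ := hA y hy
        have a1 := (abs_le.1 hp).2
        have a2 : θ =ᶠ[𝓝 p] fun q => θY (e q) := (θc.continuousAt.eventually_lt_const
          (show θ p < W1 + 1 by linarith)).mono fun q hq => (tle q hq.le).symm
        rw [← he.gam (hK1e a1) a2 a2]
        exact (hP p (by linarith)).1) fun y hy => by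
        obtain ⟨p, hp, rfl⟩ := hA y hy
        have a1 := (abs_le.1 hp).2
        have a2 := fun c => hφY c p (show θ p ≤ W1 + 2 by linarith)
        rw [Pay, ← ev_eq a2, ← gr_emb he (hK1e a1) a2]
        exact (hP p (by linarith)).2.mono (by linarith [hVF p (hK1e a1)]) (fun _ _ => le_rfl)
          fun _ _ => le_rfl
  have out : ∀ p ∈ e.source, p ∉ {p | θ p ≤ W1} → W0 ≤ θY (e p) := fun p hp a =>
    tge p hp (h01.le.trans (le_of_not_ge a))
  choose yX syX y1 y2 using fun i => he.pull hK1 hK1e (sy i) (a := a i)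
    fun p hp a => (up _ (out p hp a)).1 i
  choose g sg g1 g2 using fun c => he.pull hK1 hK1e ((sφ' c).sub (sφ c)) (a := 0)
    fun p hp a => sub_eq_zero.2 ((up _ (out p hp a)).2.2 c)
  have he' : Emb (M.xt yX) (N.xt y) e := he.xt syX sy y1
  obtain ⟨FX, sFX, -, hFX⟩ := he'.pull_near hK hKe (f := F') sF'
  have hU : IsOpen {p | W0 < |θ p|} := isOpen_lt continuous_const θc.abs
  have same : Same M (M.xt yX) {p | W0 < |θ p|} := same_xt syX fun p (hp : W0 < |θ p|) => by
    rcases lt_abs.1 hp with a1 | a1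
    · refine ⟨a, (θc.continuousAt.eventually_const_lt a1).mono fun q hq i => ?_⟩
      by_cases a2 : θ q ≤ W1
      · rw [y1 i q (hK1e a2), (up _ (tge q (hK1e a2) hq.le)).1 i]
      · exact y2 i q a2
    · refine ⟨b, (θc.continuousAt.eventually_lt_const (show θ p < -W0 by linarith)).mono
        fun q hq i => ?_⟩
      rw [y1 i q (src (by linarith)), (dn _ (by rw [tle q (by linarith)]; exact hq.le)).1 i]
  have near : ∀ p, θ p ≤ W1 + 2 → ∀ c, (fun q => φ c q + g c q) =ᶠ[𝓝 p] fun q => φ' c (e q) :=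
    fun p hp c => by
      filter_upwards [hφY c p hp, e.open_source.mem_nhds (src hp)] with q a1 a2
      rw [a1, g1 c q a2, add_sub_cancel]
  have far : ∀ p, W0 < |θ p| → ∀ c, (fun q => φ c q + g c q) =ᶠ[𝓝 p] φ c := fun p hp c => by
    filter_upwards [hU.mem_nhds hp] with q (hq : W0 < |θ q|)
    rw [add_eq_left]
    by_cases a2 : θ q ≤ W1
    · rw [g1 c q (hK1e a2), sub_eq_zero]
      rcases lt_abs.1 hq with a1 | a1
      · exact (up _ (tge q (hK1e a2) a1.le)).2.2 c
      · exact (dn _ (by rw [tle q (by linarith)]; linarith)).2.2 c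
    · exact g2 c q a2
  obtain ⟨V', Vc, Vf, v0, v1, v2⟩ := glue hV hθ sFX same hk k0 k1 k2
  refine ⟨ι ⊕ κ, inferInstance, inferInstance, M.xt yX, V',
    fun p => if θ p ≤ W1 then 2 * max (-1) (min 1 (ψ (e p))) else 2, fun c q => φ c q + g c q,
    same.mono fun p (hp : W1 + 2 ≤ |θ p|) => show W0 < |θ p| by linarith,
    ⟨xt_inj hV.inj _, Vc, Vf⟩,
    continuous_if_le θc continuous_const ?_ continuousOn_const fun p hp => ?_,
    fun c => (hφ c).add (sg c), fun c p => ?_,
    fun p hp => ⟨v1 p (by linarith), far p (by linarith)⟩, fun p hp => if_neg (by linarith),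
    fun p hp => ?_, fun p hp => ?_, fun p hp => ?_⟩
  · exact (show Continuous fun y => 2 * max (-1) (min 1 (ψ y)) by fun_prop).comp_continuousOn
      (e.continuousOn.mono hK1e)
  · rw [min_eq_left (up _ (tge p (hK1e hp.le) (by linarith))).2.1]
    norm_num
  · change Shr1 (φ c p) (φ c p + g c p)
    by_cases a : θ p ≤ W1
    · rw [g1 c p (hK1e a), (hφY c p (show θ p ≤ W1 + 2 by linarith)).self_of_nhds, add_sub_cancel]
      exact hshr c _
    · rw [g2 c p a, add_zero]
      exact G.Shr1.refl _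
  · have a1 := (dn (e p) (by rw [tle p (by linarith)]; linarith)).2.1
    beta_reduce
    rw [if_pos (show θ p ≤ W1 by linarith), max_eq_left ((min_le_right _ _).trans a1)]
    norm_num
  · have a1 := (abs_le.1 hp).2
    have c1 : |θ p| ≤ W1 → Cls (M.xt yX) η (fun c q => φ c q + g c q)
        ((M.xt yX).pre.EF FX p - 3 * s / 4 / 2) p := fun a => by
      rw [Cls, ev_eq (near p a1), gr_emb he' (src a1) (near p a1), he'.EF (src a1) sF' (hFX p a1)]
      exact cls (e p) (show |θY (e p)| ≤ W1 by rwa [tle p (by linarith [abs_le.1 a])])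
    rcases le_or_gt |θ p| W0 with a2 | a2
    · exact (c1 (a2.trans h01.le)).monoV (by linarith [v0 p a2])
    have c2 : Cls (M.xt yX) η (fun c q => φ c q + g c q) (V p - s) p := by
      rw [Cls, ev_eq (e := id) (far p a2), gr_same same a2 (far p a2)]
      exact Or.inr (hP p hp).2
    have a3 := v2 p a2 (hP p hp).1
    rcases le_total |θ p| W1 with a4 | a4
    · rcases le_total ((M.xt yX).pre.EF FX p) (V p) with a5 | a5
      · exact (c1 a4).monoV (by linarith [min_eq_left a5])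
      · exact c2.monoV (by linarith [min_eq_right a5])
    · exact c2.monoV (by linarith [v1 p a4])
  · beta_reduce at hp
    by_cases a : θ p ≤ W1
    · rw [if_pos a, abs_le] at hp
      rw [ev_eq (near p (by linarith))]
      refine few _ (abs_lt.2 ⟨lt_of_not_ge fun a1 => ?_, lt_of_not_ge fun a1 => ?_⟩)
      · rw [max_eq_left ((min_le_right _ _).trans a1)] at hp
        linarith [hp.1]
      · rw [min_eq_left a1, max_eq_right (by norm_num)] at hp
        linarith [hp.2]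
    · rw [if_neg a, abs_two] at hp
      linarith

end Crest.Agent.N228.T

end
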