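import Crest.Agent.N228.T.Defs
import Crest.Agent.N228.G.Basic

/-!
# Row 228, the top layer: `GSep` and `GEnd` from part G (helper48)
-/

set_option autoImplicit false
set_option linter.unusedSectionVars false
open MeasureTheory Set Filter Topology Function Real
open scoped ContDiff

noncomputable section

namespace Crest.Agent.N228.T
open Crest.Agent.N222
open Crest.Agent.N228.G

namespace GS

/-- the ledger constants -/
def cf (D : ℕ) : ℕ → ℝ
  | 0 => 0
  | k + 1 => 2 + D * cf D k

theorem cf_nonneg (D k : ℕ) : 0 ≤ cf D k := by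
  induction k with
  | zero => exact le_rfl
  | succ k ih => rw [cf]; positivity

theorem le_cf (D k : ℕ) {η : ℝ} (hη : 0 < η) : η ≤ cf D (k + 1) * η := by
  have := mul_nonneg (Nat.cast_nonneg (α := ℝ) D) (cf_nonneg D k)
  rw [cf]
  nlinarith

variable {C : Type} [Fintype C]

theorem sum_le {D : ℕ} (hD : Fintype.card C ≤ D) (S : Finset C) {x : ℝ} (hx : 0 ≤ x) :
    ∑ _c ∈ S, x ≤ D * x := by
  rw [Finset.sum_const, nsmul_eq_mul]
  exact mul_le_mul_of_nonneg_right (Nat.cast_le.2 ((Finset.card_le_univ S).trans hD)) hx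

theorem small {D k : ℕ} {s η : ℝ} (hη : 0 < η) (h : η ≤ s / (D * cf D k + 1)) :
    D * (cf D k * η) ≤ s := by
  have := mul_nonneg (Nat.cast_nonneg (α := ℝ) D) (cf_nonneg D k)
  rw [le_div_iff₀ (by positivity)] at h
  nlinarith

theorem sum_opt (φ g : Option C → ℝ) : ∑ c ∈ fin φ, g c =
    (if |φ none| ≤ π / 2 then g none else 0) + ∑ c ∈ fin fun c => φ (some c), g (some c) := by
  rw [fin, fin, Finset.sum_filter, Finset.sum_filter, Fintype.sum_option]

theorem few_some {m : ℕ} {φ : Option C → ℝ} (h : Few m φ) : Few m fun c => φ (some c) := by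
  have := sum_opt φ fun _ => 1
  simp only [Finset.sum_const, nsmul_eq_mul, mul_one] at this
  have h1 : ((fin fun c => φ (some c)).card : ℝ) ≤ (fin φ).card := by
    rw [this]; split_ifs <;> linarith
  exact (Nat.add_le_add_right (Nat.cast_le.1 h1) 2).trans h

theorem ok_some {η r φ g : Option C → ℝ} {V : ℝ} (h : Ok η r V φ g) (hr : 0 ≤ r none) :
    Ok (fun c => η (some c)) (fun c => r (some c)) V (fun c => φ (some c)) fun c => g (some c) := by
  obtain ⟨β, h1, h2⟩ := h
  refine ⟨fun c => β (some c), fun c hc => h1 (some c) (mem_fin.2 (mem_fin.1 hc :)), ?_⟩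
  rw [sum_opt] at h2
  refine lt_of_le_of_lt (le_add_of_nonneg_left ?_) h2
  split_ifs
  · positivity
  · exact le_rfl

theorem ok_opt {η r φ g : Option C → ℝ} {V b : ℝ}
    (h : Ok (fun c => η (some c)) (fun c => r (some c)) V (fun c => φ (some c)) fun c => g (some c))
    (hb : 0 ≤ b) (hη : b ≤ √(η none) / 8) (hr : 0 ≤ r none) (he : g none < b) :
    Ok η r (V + (4 / 3 * b ^ 2 + r none)) φ g := by
  obtain ⟨β, h1, h2⟩ := h
  refine ⟨fun o => o.elim b β, fun c hc => ?_, ?_⟩
  · cases c with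
    | none => exact he.trans_le (le_rate hb hη (mem_fin.1 hc))
    | some c => exact h1 c (mem_fin.2 (mem_fin.1 hc :))
  · rw [sum_opt, add_comm]
    refine add_lt_add_of_lt_of_le h2 ?_
    split_ifs
    · exact le_rfl
    · positivity

theorem gend {n : ℕ} (h : SStmt n) : GEnd n := by
  intro D s hs
  have h0 := mul_nonneg (Nat.cast_nonneg (α := ℝ) D) (cf_nonneg D n)
  have hη : 0 < s / (D * cf D n + 1) := by positivity
  refine ⟨_, hη, fun ι _ _ Y _ _ _ _ _ _ N F C _ φ A hi hF hφ hD hA hc hb => ?_⟩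
  classical
  have hsm := small hη le_rfl
  generalize s / (D * cf D n + 1) = η at hη hc hsm
  obtain ⟨κ, _, _, y, ψ, hp, hq⟩ := h ι Y C N A (fun _ => η) 0 0 (fun k _ => cf D k * η) φ
    ⟨hi, hA, fun _ => hη, fun _ => le_rfl, le_rfl, hφ⟩
    ⟨fun k _ => mul_nonneg (cf_nonneg D k) hη.le, fun k _ => le_cf D k hη, fun k p _ c _ => by
      have := sum_le hD (fin (ev φ p)) (mul_nonneg (cf_nonneg D k) hη.le)
      simp only [cf]
      linarith⟩
    (fun p hp => (em (p ∈ interior A)).elim Or.inr fun e => Or.inl (hb p hp e))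
    ⟨F, hF, fun p hp => (hc p hp).imp_right fun e => by
      have := e.add_res ((sum_le hD _ (mul_nonneg (cf_nonneg D n) hη.le)).trans hsm)
      rwa [sub_add_cancel, ← sub_zero (N.pre.EF F p)] at this⟩
  exact ⟨ψ 1, fun c => (hp.jψ c).continuous.comp (continuous_const.prodMk continuous_id),
    hp.shr 1 ⟨zero_le_one, le_rfl⟩, hq⟩

theorem norm_grad_mul {d : ℕ} {ι : Type} [Fintype ι] [DecidableEq ι] {X : Type} [TopologicalSpace X]
    {M : Imm d ι X} {θ : X → ℝ} (hθ : M.Sm θ) {a : ℝ} (ha : 0 ≤ a) {p : X}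
    (h : M.pre.gam θ θ p ≤ 1) : ‖M.grad (fun q => a * θ q) p‖ ≤ a := by
  refine (pow_le_pow_iff_left₀ (norm_nonneg _) ha two_ne_zero).1 ?_
  rw [← Imm.gam_self_eq, Imm.gam_apply]
  rw [Imm.gam_apply] at h
  simp only [Imm.D_const_mul a (hθ.diffAt p)]
  calc _ = a ^ 2 * ∑ i, M.pre.D i θ p * M.pre.D i θ p := by
        rw [Finset.mul_sum]; exact Finset.sum_congr rfl fun _ _ => by ring
    _ ≤ a ^ 2 := mul_le_of_le_one_right (sq_nonneg a) h

theorem gsep {m : ℕ} (h : LStepStmt m) : GSep (m + 1) := by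
  intro s hs
  obtain ⟨a, ha, ha2⟩ : ∃ a : ℝ, 0 < a ∧ 2 * a = √(s / 8) / 8 :=
    ⟨√(s / 8) / 16, by positivity, by ring⟩
  have ha3 : (2 * a) ^ 2 = s / 512 := by
    rw [ha2, div_pow, Real.sq_sqrt (by positivity)]; ring
  have hW : a * (2 / a) = 2 := by field_simp
  refine ⟨2 / a, by positivity, fun D => ?_⟩
  have h0 := mul_nonneg (Nat.cast_nonneg (α := ℝ) D) (cf_nonneg D m)
  refine ⟨s / 8 / (D * cf D m + 1), by positivity,
    fun η hη hη0 ι _ _ Y _ _ _ _ _ _ N F θ C _ φ A hi hF hθ hφ hD hA hW1 hg hc => ?_⟩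
  classical
  have hsm := small hη hη0
  have hl : ∀ k, 0 ≤ cf D k * η := fun k => mul_nonneg (cf_nonneg D k) hη.le
  have hρ : 0 ≤ D * (cf D m * η) := mul_nonneg (Nat.cast_nonneg D) (hl m)
  have hU : ∀ p, |a * θ p| ≤ π / 2 → |θ p| < 2 / a := fun p hp => by
    rw [abs_mul, abs_of_pos ha] at hp
    rw [lt_div_iff₀' ha]
    linarith [pi_lt_four]
  have hUo : IsOpen {p | |θ p| < 2 / a} := isOpen_lt hθ.continuous.abs continuous_const
  have hUA : {p | |θ p| < 2 / a} ⊆ A := fun p hp => hW1 (le_of_lt (b := 2 / a) hp :)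
  have hsum : ∀ k p, ∑ b ∈ fin (ev (park (fun o : Option C => o.elim (fun p => a * θ p) φ) none) p),
      b.elim (s / 8) (fun _ => cf D k * η) ≤ D * (cf D k * η) := fun k p => by
    rw [sum_opt, if_neg (by simpa [ev] using not_fin_pi), zero_add]
    exact sum_le hD _ (hl k)
  obtain ⟨κ, _, _, y, ψ, a', b', hy, hψ, ⟨F', hF', hin⟩, hsh, hoff, hfew⟩ := h ι Y (Option C) N A
    (fun o => o.elim (s / 8) fun _ => η)
    (fun o => o.elim (2 * (s / 8) + D * (cf D m * η)) fun _ => 0) (s / 2)
    (fun k o => o.elim (s / 8) fun _ => cf D k * η) (fun o => o.elim (fun p => a * θ p) φ)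
    ⟨hi, hA, fun o => by cases o <;> simp only [Option.elim] <;> positivity,
      fun o => by cases o <;> simp only [Option.elim] <;> positivity, by positivity,
      fun o => by
        cases o with
        | none => exact (Imm.sm_const a).mul hθ
        | some c => exact hφ c⟩
    {p | |θ p| < 2 / a} none (2 * (s / 8) + D * (cf D m * η)) hUo hU
    (fun p _ hp => Or.inr (interior_maximal hUA hUo (hU p hp)))
    ⟨⟨fun k o => by
        cases o with
        | none => exact (by positivity : 0 ≤ s / 8)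
        | some c => exact hl k,
      fun k o => by
        cases o with
        | none => exact le_rfl
        | some c => exact le_cf D k hη,
      fun k p _ o ho => by
        cases o with
        | none => exact absurd (mem_fin.1 ho) (by simpa [ev] using not_fin_pi)
        | some c =>
          have := hsum k p
          simp only [Option.elim_some, cf]
          linarith⟩,
      by simp only [Option.elim_none]; linarith, fun p _ _ => add_le_add_right (hsum m p) _⟩
    le_rfl
    ⟨F, hF, fun p hp => Or.inr (by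
      refine Ok.mono (ok_opt (b := 2 * a) (V := N.pre.EF F p - s) ?_ (by positivity) ha2.le ?_ ?_)
        ?_ (fun _ _ => le_rfl) fun _ _ => le_rfl
      · exact hc p hp
      · simp only [Option.elim_none]; positivity
      · exact (norm_grad_mul hθ ha.le (hg p hp)).trans_lt (by linarith)
      · simp only [Option.elim_none]; linarith)⟩
  refine ⟨κ, inferInstance, inferInstance, y, a', b', F', ψ none, fun c => ψ (some c), hy, hF',
    (hψ none).continuous, fun c => hψ (some c), fun c => hsh (some c), fun p hp => ?_,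
    fun p hp => ?_, fun p hp => (hin p hp).imp few_some fun e => ?_, fun p hp => ?_⟩
  · obtain ⟨e1, e2, -⟩ := hoff p fun e => (le_abs_self _).not_gt (hp.trans_lt' e)
    have : 2 ≤ a * θ p := hW ▸ mul_le_mul_of_nonneg_left hp ha.le
    exact ⟨e2 (show 0 < a * θ p by linarith), (e1 none).symm ▸ (show 1 ≤ a * θ p by linarith),
      fun c => e1 (some c)⟩
  · obtain ⟨e1, -, e2⟩ := hoff p fun e => (neg_le_abs _).not_gt ((le_neg.1 hp).trans_lt' e)
    have : a * θ p ≤ -2 := by nlinarith [mul_le_mul_of_nonneg_left hp ha.le]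
    exact ⟨e2 (show a * θ p < 0 by linarith), (e1 none).symm ▸ (show a * θ p ≤ -1 by linarith),
      fun c => e1 (some c)⟩
  · exact (ok_some e (by simp)).mono le_rfl (fun _ _ => le_rfl) fun c _ => by simp
  · have h1 : |ψ none p| ≤ π / 2 := by linarith [pi_gt_three]
    exact few_some (hfew p (hUA (hU p ((hsh none p).abs_le h1))) h1)

end GS

/-- **T2** -/
theorem gstmt : T.GStmt := fun hG n hn => by
  obtain ⟨m, rfl⟩ : ∃ m, n = m + 1 := ⟨n - 1, by omega⟩
  exact ⟨GS.gsep (hG m (by omega)).2, GS.gend (hG (m + 1) (by omega)).1⟩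

end Crest.Agent.N228.T

end
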