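import Crest.Agent.N228.T.Defs
import Crest.Agent.N228.G.Path

/-! # Row 228, the top layer (helper92): `GSep` and `GEnd` from part G -/

set_option autoImplicit false
open Set Filter Topology Function Real

namespace Crest.Agent.N228.T.GS2
open Crest.Agent.N222 Crest.Agent.N222.Imm
open Crest.Agent.N228.G hiding GStmt Same GenStmt

/-- the constants of the ledger -/
def cf (D : ℕ) : ℕ → ℝ
  | 0 => 0
  | k + 1 => 2 + D * cf D k

theorem cf_nonneg (D : ℕ) : ∀ k, 0 ≤ cf D k
  | 0 => le_rfl
  | k + 1 => by have := cf_nonneg D k; unfold cf; positivity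

section
variable {C C' : Type} [Fintype C] [Fintype C'] {η r φ g : C → ℝ} {j : C' → C} {m : ℕ} {V : ℝ}

theorem mem_comp {b : C'} : b ∈ fin (φ ∘ j) ↔ j b ∈ fin φ := mem_fin.trans (mem_fin (φ := φ)).symm

theorem ok_of_sub (hj : Injective j) (h : ∀ c, |φ c| ≤ π / 2 → ∃ b, j b = c)
    (hf : Ok (η ∘ j) (r ∘ j) V (φ ∘ j) (g ∘ j)) : Ok η r V φ g := by
  classical
  obtain ⟨β, h1, h2⟩ := hf
  have e : fin φ = (fin (φ ∘ j)).image j := by
    ext c
    simp only [Finset.mem_image, mem_comp]
    exact ⟨fun hc => let ⟨b, hb⟩ := h c (mem_fin.1 hc); ⟨b, hb ▸ hc, hb⟩,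
      fun ⟨b, h1, h2⟩ => h2 ▸ h1⟩
  refine ⟨extend j β 0, fun c hc => ?_, ?_⟩
  · obtain ⟨b, rfl⟩ := h c (mem_fin.1 hc)
    rw [hj.extend_apply]
    exact h1 b (mem_comp.2 hc)
  · rw [e, Finset.sum_image fun _ _ _ _ e => hj e]
    simpa only [hj.extend_apply, comp_apply] using h2

theorem image_fin [DecidableEq C] : (fin (φ ∘ j)).image j ⊆ fin φ := fun c hc => by
  obtain ⟨b, h1, rfl⟩ := Finset.mem_image.1 hc
  exact mem_comp.1 h1

theorem few_res (hj : Injective j) (h : Few m φ) : Few m (φ ∘ j) := by
  classical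
  have := Finset.card_le_card (image_fin (φ := φ) (j := j))
  rw [Finset.card_image_of_injective _ hj] at this
  exact (Nat.add_le_add_right this 2).trans h

theorem good_res (hj : Injective j) (hr : ∀ c, 0 ≤ r c) (h : Good m η r V φ g) :
    Good m (η ∘ j) (r ∘ j) V (φ ∘ j) (g ∘ j) := by
  classical
  refine h.imp (few_res hj) fun ⟨β, h1, h2⟩ =>
    ⟨β ∘ j, fun b hb => h1 _ (mem_comp.1 hb), lt_of_le_of_lt ?_ h2⟩
  refine le_trans (le_of_eq ?_) (Finset.sum_le_sum_of_subset_of_nonneg (image_fin (j := j))
    fun c _ _ => by have := hr c; positivity)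
  rw [Finset.sum_image fun _ _ _ _ e => hj e]
  rfl

theorem sum_le {D : ℕ} (hD : Fintype.card C ≤ D) (S : Finset C) {x : ℝ} (hx : 0 ≤ x) :
    ∑ _c ∈ S, x ≤ D * x := by
  rw [Finset.sum_const, nsmul_eq_mul]
  exact mul_le_mul_of_nonneg_right (by exact_mod_cast S.card_le_univ.trans hD) hx

theorem sum_opt {D : ℕ} (hD : Fintype.card C ≤ D) {S : Finset (Option C)} (hS : none ∉ S)
    {x y : ℝ} (hx : 0 ≤ x) : ∑ b ∈ S, (b.elim y fun _ => x) ≤ D * x := by
  classical
  have h : S ⊆ Finset.univ.image some := fun b hb => by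
    cases b with
    | none => exact absurd hb hS
    | some c => exact Finset.mem_image_of_mem _ (Finset.mem_univ c)
  refine (Finset.sum_le_sum_of_subset_of_nonneg h fun b hb _ => ?_).trans ?_
  · obtain ⟨c, -, rfl⟩ := Finset.mem_image.1 hb
    exact hx
  · rw [Finset.sum_image fun _ _ _ _ e => Option.some_injective _ e]
    exact sum_le hD _ hx

end

theorem gend {n : ℕ} (hS : SStmt n) : GEnd n := by
  classical
  intro D s hs
  have h0 := cf_nonneg D
  have h1 : 0 < D * cf D n + 1 := by have := h0 n; positivity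
  refine ⟨s / (D * cf D n + 1), by positivity,
    fun ι _ _ Y _ _ _ _ _ _ N F C _ φ A hN hF hφ hD hA hc hb => ?_⟩
  set η := s / (D * cf D n + 1) with hη
  have η0 : 0 < η := by positivity
  have h2 : η * (D * cf D n + 1) = s := div_mul_cancel₀ _ h1.ne'
  obtain ⟨κ, _, _, y, ψ, hp, hq⟩ := hS ι Y C N A (fun _ => η) 0 0 (fun k _ => cf D k * η) φ
    ⟨hN, hA, fun _ => η0, fun _ => le_rfl, le_rfl, hφ⟩
    ⟨fun k _ => mul_nonneg (h0 k) η0.le, fun k _ => by
      have := mul_nonneg (mul_nonneg D.cast_nonneg (h0 k)) η0.le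
      simp only [cf]; nlinarith, fun k p _ c _ => by
      have := sum_le hD (fin (ev φ p)) (mul_nonneg (h0 k) η0.le)
      simp only [cf]; linarith⟩
    (fun p hp => (em (p ∈ interior A)).elim Or.inr fun h => Or.inl (hb p hp h))
    ⟨F, hF, fun p hp => Good.monoV ((hc p hp).imp id fun h =>
      h.add_res (sum_le hD _ (mul_nonneg (h0 n) η0.le))) (by nlinarith)⟩
  exact ⟨ψ 1, fun c => (hp.smψ 1 c).continuous, hp.shr 1 ⟨zero_le_one, le_rfl⟩, hq⟩

theorem gsep {m : ℕ} (hL : LStepStmt m) : GSep (m + 1) := by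
  classical
  intro s hs
  set b := √(s / 32) / 8 with hb
  have b0 : 0 < b := by positivity
  have b2 : b ^ 2 = s / 2048 := by rw [hb, div_pow, sq_sqrt (by positivity)]; ring
  refine ⟨4 / b, by positivity, fun D => ?_⟩
  have h0 := cf_nonneg D
  have h1 : 0 < D * cf D m + 1 := by have := h0 m; positivity
  refine ⟨s / 16 / (D * cf D m + 1), by positivity,
    fun η η0 hη ι _ _ Y _ _ _ _ _ _ N F θ C _ φ A hN hF hθ hφ hD hA hWA hg hc => ?_⟩
  rw [le_div_iff₀ h1] at hη
  have key : ∀ t : ℝ, |b / 2 * t| ≤ π / 2 → |t| < 4 / b := fun t ht => by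
    rw [abs_mul, abs_of_pos (half_pos b0)] at ht
    rw [lt_div_iff₀ b0]
    linarith [pi_lt_four]
  let Φ : Option C → Y → ℝ := fun o => o.elim (fun p => b / 2 * θ p) φ
  let η' : Option C → ℝ := fun o => o.elim (s / 32) fun _ => η
  let ρ : ℝ := s / 16 + D * (cf D m * η)
  have ρ0 : s / 16 ≤ ρ := le_add_of_nonneg_right (by have := h0 m; positivity)
  have hU : IsOpen {p | |θ p| < 4 / b} := isOpen_lt hθ.continuous.abs continuous_const
  have hnone : ∀ p, none ∉ fin (ev (park Φ none) p) := fun p => by
    rw [fin_park]; exact Finset.notMem_erase _ _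
  obtain ⟨κ, _, _, y, ψ, a1, a2, hy, hψ, ⟨F', hF', hcl⟩, hsh, hloc, hfew⟩ :=
    hL ι Y (Option C) N A η' (update 0 none ρ) (s / 2)
      (fun k o => o.elim (s / 32) fun _ => cf D k * η) Φ
      ⟨hN, hA, fun o => by cases o <;> simp only [η', Option.elim] <;> positivity,
        fun o => by cases o <;> simp; linarith, by positivity, fun o => by
          cases o
          exacts [(sm_const _).mul hθ, hφ _]⟩
      {p | |θ p| < 4 / b} none ρ hU (fun p hp => key _ hp)
      (fun p _ hp => Or.inr (interior_maximal (fun q (hq : |θ q| < _) => hWA hq.le) hU (key _ hp)))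
      ⟨⟨fun k o => by
          have := h0 k
          cases o <;> simp only [Option.elim] <;> positivity,
        fun k o => by
          have := mul_nonneg (mul_nonneg D.cast_nonneg (h0 k)) η0.le
          cases o <;> simp only [η', Option.elim, cf] <;> nlinarith,
        fun k p _ o ho => by
          have := sum_opt hD (hnone p) (y := s / 32) (mul_nonneg (h0 k) η0.le)
          cases o with
          | none => exact absurd ho (hnone p)
          | some c => simp only [η', Option.elim_some, cf]; linarith⟩,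
        by simp only [η', Option.elim]; linarith, fun p _ _ => by
          have := sum_opt hD (hnone p) (y := s / 32) (mul_nonneg (h0 m) η0.le)
          simp only [η', Option.elim_none, ρ]; linarith⟩
      (by simp)
      ⟨F, hF, fun p hp => Or.inr (by
        have h2 : Ok η' 0 (N.pre.EF F p - s) (update (ev Φ p) none π) (gr N Φ p) :=
          ok_of_sub (Option.some_injective C) (fun o ho => by
            cases o with
            | none => rw [update_self] at ho; exact absurd ho not_fin_pi.not_ge
            | some c => exact ⟨c, rfl⟩) (by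
              rw [update_comp_eq_of_forall_ne _ _ fun c => Option.some_ne_none c]
              exact hc p hp)
        have h3 := h2.put (c := none) (by rw [update_self]; exact not_fin_pi) (a := Φ none p)
          (e := gr N Φ p none) b0.le le_rfl (by linarith : 0 ≤ ρ) fun _ => by
            have h4 : gr N Φ p none ^ 2 ≤ (b / 2) ^ 2 := by
              rw [gr, ← gam_self_eq]
              simp only [Φ, Option.elim_none, gam_apply, D_const_mul _ (hθ.diffAt p)]
              have := hg p hp
              rw [gam_apply] at this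
              calc _ = (b / 2) ^ 2 * ∑ a, N.pre.D a θ p * N.pre.D a θ p := by
                    rw [Finset.mul_sum]; exact Finset.sum_congr rfl fun _ _ => by ring
                _ ≤ _ := mul_le_of_le_one_right (sq_nonneg _) this
            linarith [le_of_sq_le_sq₀ h4 (half_pos b0).le]
        rw [update_idem, update_eq_self, update_eq_self] at h3
        exact h3.mono (by simp only [ρ]; nlinarith) (fun _ _ => le_rfl) fun _ _ => le_rfl)⟩
  have hb4 : b / 2 * (4 / b) = 2 := by field_simp; norm_num
  refine ⟨κ, ‹_›, ‹_›, y, a1, a2, F', fun p => ψ none p / (π / 2), fun c => ψ (some c), hy, hF',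
    (hψ none).continuous.div_const _, fun c => hψ _, fun c => hsh (some c), fun p hp => ?_,
    fun p hp => ?_, fun p hp => ?_, fun p hp => ?_⟩
  · have h2 := hloc p fun h : |θ p| < _ => (abs_lt.1 h).2.not_ge hp
    have h3 : 2 ≤ Φ none p := hb4 ▸ mul_le_mul_of_nonneg_left hp (half_pos b0).le
    refine ⟨h2.2.1 (by linarith), ?_, fun c => h2.1 (some c)⟩
    rw [le_div_iff₀ (by positivity), h2.1]
    linarith [pi_lt_four]
  · have h2 := hloc p fun h : |θ p| < _ => (abs_lt.1 h).1.not_ge hp
    have h3 : Φ none p ≤ -2 := by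
      have := mul_le_mul_of_nonneg_left hp (half_pos b0).le
      rwa [mul_neg, hb4] at this
    refine ⟨h2.2.2 (by linarith), ?_, fun c => h2.1 (some c)⟩
    rw [div_le_iff₀ (by positivity), h2.1]
    linarith [pi_lt_four]
  · have h2 := hcl p hp
    rw [update_idem, update_self, sub_self, 
      show update (0 : Option C → ℝ) none 0 = 0 from update_eq_self none (0 : Option C → ℝ)] at h2
    exact good_res (Option.some_injective C) (fun _ => le_rfl) h2
  · have h2 : |ψ none p| ≤ π / 2 := by
      rw [abs_div, abs_of_pos (by positivity : 0 < π / 2), div_lt_one (by positivity)] at hp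
      exact hp.le
    exact few_res (Option.some_injective C)
      (hfew p (hWA (key _ ((hsh none p).abs_le h2)).le) h2)

end GS2

theorem gstmt' : GStmt := fun hG n hn => by
  obtain ⟨m, rfl⟩ : ∃ m, n = m + 1 := ⟨n - 1, by omega⟩
  exact ⟨GS2.gsep (hG m (by omega)).2, GS2.gend (hG _ (by omega)).1⟩

end Crest.Agent.N228.T
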