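import Crest.Agent.N228.T.Defs
import Crest.Agent.N228.O.Cube

/-!
# Row 228, the top layer: gluing the pieces along the separators
-/

set_option autoImplicit false
open Set Filter Topology Function Real

noncomputable section

namespace Crest.Agent.N228.T
open Crest.Agent.N228.G (Shr1)

theorem Glue.shr {a b t : ℝ} (h : Shr1 a b) (h0 : 0 ≤ t) (h1 : t ≤ 1) :
    Shr1 a ((1 - t) * a + t * b) := by
  refine ⟨fun ha => ?_, fun ha => ?_⟩
  · have hb := h.1 ha
    rcases le_total a b with h2 | h2 <;> nlinarith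
  · have hb := h.2 ha
    rcases le_total a b with h2 | h2 <;> nlinarith

theorem glue : GlueStmt := by
  intro X _ k C κ φ ψ Φ hφ hψ hl hp h0 hlψ hmono hsep hΦ hpc
  let A : ℕ → Set X := fun i => {p | 0 ≤ ψ i p ∧ ψ (i + 1) p ≤ 0}
  have hcov : ∀ p, ∃ i, p ∈ A i := by
    intro p
    obtain ⟨j, hj⟩ := (hlψ.point_finite p).exists_notMem
    have hj' : ψ j p < 0 := not_le.1 hj
    have hex : ∃ i, ψ (i + 1) p ≤ 0 := by
      cases j with
      | zero => exact absurd (h0 p) hj'.not_gt
      | succ j => exact ⟨j, hj'.le⟩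
    classical
    refine ⟨Nat.find hex, ?_, Nat.find_spec hex⟩
    cases e : Nat.find hex with
    | zero => exact (h0 p).le
    | succ i => exact (not_le.1 (Nat.find_min hex (m := i) (by omega))).le
  choose ι hι using hcov
  let χ : ℕ → X → ℝ := fun i p => min 1 (min (ψ i p) (-ψ (i + 1) p))
  have hχ : ∀ i, ∀ p ∈ A i, 0 ≤ χ i p ∧ χ i p ≤ 1 := fun i p hp =>
    ⟨le_min zero_le_one (le_min hp.1 (neg_nonneg.2 hp.2)), min_le_left _ _⟩
  let t : ℕ → κ → X → ℝ := fun i c p => (1 - χ i p) * φ c p + χ i p * Φ i c p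
  have hlt : ∀ i j p, i < j → p ∈ A i → p ∈ A j → χ i p = 0 ∧ χ j p = 0 := by
    intro i j p hij hi hj
    have e : j = i + 1 := by
      by_contra hne
      exact (hmono (i + 1) j p (by omega) hj.1).not_ge hi.2
    subst e
    have h1 : ψ (i + 1) p = 0 := le_antisymm hi.2 hj.1
    refine ⟨le_antisymm ?_ (hχ i p hi).1, le_antisymm ?_ (hχ _ p hj).1⟩
    · exact (min_le_right _ _).trans ((min_le_right _ _).trans (by rw [h1, neg_zero]))
    · exact (min_le_right _ _).trans ((min_le_left _ _).trans h1.le)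
  have heq : ∀ i c, ∀ p ∈ A i, t (ι p) c p = t i c p := by
    intro i c p hp
    rcases lt_trichotomy (ι p) i with h | h | h
    · obtain ⟨h1, h2⟩ := hlt _ _ p h (hι p) hp
      simp only [t, h1, h2, zero_mul]
    · rw [h]
    · obtain ⟨h1, h2⟩ := hlt _ _ p h hp (hι p)
      simp only [t, h1, h2, zero_mul]
  have hshr : ∀ c p, Shr1 (φ c p) (t (ι p) c p) := fun c p =>
    Glue.shr ((hpc _ p (hι p).1 (hι p).2).1 c) (hχ _ p (hι p)).1 (hχ _ p (hι p)).2
  have hlow : ∀ c p, -(π / 2) < t (ι p) c p → -(π / 2) ≤ φ c p := fun c p h =>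
    not_lt.1 fun h' => ((hshr c p).2 h').not_gt h
  refine cube X k C (π / 2) (by positivity) κ (fun c p => t (ι p) c p) (fun c => ?_)
    (hl.subset fun c p h => hlow c p h) (fun p => ?_) fun p S hS => ?_
  · refine LocallyFinite.continuous (f := A) (hlψ.subset fun i p h => h.1)
      (eq_univ_of_forall fun p => mem_iUnion.2 ⟨_, hι p⟩)
      (fun i => (isClosed_le continuous_const (hψ i)).inter (isClosed_le (hψ _) continuous_const))
      fun i => ?_
    have hc : Continuous (χ i) := continuous_const.min ((hψ i).min (hψ _).neg)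
    exact (((continuous_const.sub hc).mul (hφ c)).continuousOn.add
      (hc.continuousOn.mul (hΦ i c))).congr (heq i c)
  · obtain ⟨c, h1, h2⟩ := hp p
    exact ⟨c, ((hshr c p).1 h1).le, fun q hq => h2 q (hlow c q hq)⟩
  · have hφS : ∀ c ∈ S, |φ c p| ≤ π / 2 := fun c hc => abs_le.2
      ⟨hlow c p (abs_lt.1 (hS c hc)).1,
        not_lt.1 fun h => ((hshr c p).1 h).not_gt (abs_lt.1 (hS c hc)).2⟩
    by_cases h1 : ψ (ι p) p ≤ 1
    · exact hsep (ι p) p S (abs_le.2 ⟨by linarith [(hι p).1], h1⟩) hφS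
    by_cases h2 : -1 ≤ ψ (ι p + 1) p
    · exact hsep (ι p + 1) p S (abs_le.2 ⟨h2, by linarith [(hι p).2]⟩) hφS
    have h3 : χ (ι p) p = 1 := min_eq_left (le_min (not_le.1 h1).le (by linarith [not_le.1 h2]))
    refine (hpc _ p (hι p).1 (hι p).2).2 S fun c hc => ?_
    have := (hS c hc).le
    simpa only [t, h3, sub_self, zero_mul, one_mul, zero_add] using this

end Crest.Agent.N228.T

end
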