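import Crest.Agent.N228.T.Defs
import Crest.Agent.N228.G.Basic

/-!
# Row 228, top layer: `prof : ProfStmt`, `pay_of_sq`, `grad_prof` (helper35)
-/

set_option autoImplicit false
open MeasureTheory Set Filter Topology Function Real
open scoped ContDiff

noncomputable section

namespace Crest.Agent.N228.T
open Crest.Agent.N222

namespace Pf

local notation "σ" => Real.smoothTransition

theorem deriv_st {x : ℝ} (h : x ≤ 0 ∨ 1 ≤ x) : deriv σ x = 0 := by
  rcases h with h | h
  · refine IsLocalMin.deriv_eq_zero (Eventually.of_forall fun y => ?_)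
    rw [smoothTransition.zero_of_nonpos h]
    exact smoothTransition.nonneg y
  · refine IsLocalMax.deriv_eq_zero (Eventually.of_forall fun y => ?_)
    rw [smoothTransition.one_of_one_le h]
    exact smoothTransition.le_one y

/-- three steps; flat at the levels `± π / 2` -/
def Th (t : ℝ) : ℝ := -2 + (2 - π / 2) * σ (3 / 2 * (t + 1)) + π * σ (3 / 2 * (t + 1) - 1) +
  (2 - π / 2) * σ (3 / 2 * (t + 1) - 2)

theorem Th_smooth : ContDiff ℝ ∞ Th := by
  have h : ∀ c : ℝ, ContDiff ℝ ∞ fun t : ℝ => σ (3 / 2 * (t + 1) - c) := fun c =>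
    smoothTransition.contDiff.comp (by fun_prop)
  have h0 := h 0
  simp only [sub_zero] at h0
  exact ((contDiff_const.add (contDiff_const.mul h0)).add (contDiff_const.mul (h 1))).add
    (contDiff_const.mul (h 2))

theorem c_pos : 0 < 2 - π / 2 := by linarith [pi_lt_four]

theorem Th_abs (t : ℝ) : |Th t| ≤ 2 := by
  have h1 := fun x => mul_nonneg c_pos.le (smoothTransition.nonneg x)
  have h2 := fun x => mul_le_of_le_one_right c_pos.le (smoothTransition.le_one x)
  have h3 := fun x => mul_nonneg pi_pos.le (smoothTransition.nonneg x)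
  have h4 := fun x => mul_le_of_le_one_right pi_pos.le (smoothTransition.le_one x)
  unfold Th
  rw [abs_le]
  constructor
  · linarith [h1 (3 / 2 * (t + 1)), h1 (3 / 2 * (t + 1) - 2), h3 (3 / 2 * (t + 1) - 1)]
  · linarith [h2 (3 / 2 * (t + 1)), h2 (3 / 2 * (t + 1) - 2), h4 (3 / 2 * (t + 1) - 1)]

theorem Th_one {t : ℝ} (h : 1 ≤ t) : Th t = 2 := by
  unfold Th
  rw [smoothTransition.one_of_one_le (by linarith), smoothTransition.one_of_one_le (by linarith),
    smoothTransition.one_of_one_le (by linarith)]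
  ring

theorem Th_neg {t : ℝ} (h : t ≤ -1) : Th t = -2 := by
  unfold Th
  rw [smoothTransition.zero_of_nonpos (by linarith), smoothTransition.zero_of_nonpos (by linarith),
    smoothTransition.zero_of_nonpos (by linarith)]
  ring

theorem Th_deriv {t : ℝ} (h : 3 / 2 * (t + 1) = 1 ∨ 3 / 2 * (t + 1) = 2) : deriv Th t = 0 := by
  have h1 : ∀ c : ℝ, (3 / 2 * (t + 1) - c ≤ 0 ∨ 1 ≤ 3 / 2 * (t + 1) - c) →
      HasDerivAt (fun t : ℝ => σ (3 / 2 * (t + 1) - c)) 0 t := fun c hc => by
    have h2 : HasDerivAt σ 0 (3 / 2 * (t + 1) - c) := deriv_st hc ▸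
      ((smoothTransition.contDiff (n := 1)).differentiable (by simp) _).hasDerivAt
    have h3 : HasDerivAt (fun t : ℝ => 3 / 2 * (t + 1) - c) (3 / 2 * 1) t :=
      (((hasDerivAt_id t).add_const 1).const_mul _).sub_const c
    exact (h2.comp t h3).congr_deriv (zero_mul _)
  have h0 := h1 0 (Or.inr (by rcases h with h | h <;> linarith))
  simp only [sub_zero] at h0
  have h4 := (((h0.const_mul (2 - π / 2)).const_add (-2)).add
    ((h1 1 (by rcases h with h | h; exacts [Or.inl (by linarith), Or.inr (by linarith)])).const_mul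
      π)).add ((h1 2 (Or.inl (by rcases h with h | h <;> linarith))).const_mul (2 - π / 2))
  exact h4.deriv.trans (by simp)

theorem Th_flat {t : ℝ} (h : |Th t| = π / 2) : deriv Th t = 0 := by
  refine Th_deriv ?_
  have hc := c_pos
  set u := 3 / 2 * (t + 1) with hu
  have e : Th t = -2 + (2 - π / 2) * σ u + π * σ (u - 1) + (2 - π / 2) * σ (u - 2) := rfl
  by_contra hne
  rw [not_or] at hne
  rcases lt_or_gt_of_ne hne.1 with h1 | h1
  · rw [smoothTransition.zero_of_nonpos (x := u - 1) (by linarith),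
      smoothTransition.zero_of_nonpos (x := u - 2) (by linarith)] at e
    have := mul_lt_mul_of_pos_left (smoothTransition.lt_one_of_lt_one h1) hc
    have := neg_abs_le (Th t)
    linarith
  rcases lt_or_gt_of_ne hne.2 with h2 | h2
  · rw [smoothTransition.one_of_one_le h1.le,
      smoothTransition.zero_of_nonpos (x := u - 2) (by linarith)] at e
    have h3 := mul_lt_mul_of_pos_left
      (smoothTransition.lt_one_of_lt_one (x := u - 1) (by linarith)) pi_pos
    have h4 := mul_pos pi_pos (smoothTransition.pos_of_pos (x := u - 1) (by linarith))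
    exact absurd h (abs_lt.2 ⟨by linarith, by linarith⟩).ne
  · rw [smoothTransition.one_of_one_le h1.le,
      smoothTransition.one_of_one_le (x := u - 1) (by linarith)] at e
    have := mul_pos hc (smoothTransition.pos_of_pos (x := u - 2) (by linarith))
    have := le_abs_self (Th t)
    linarith

end Pf

open Pf in
theorem prof : ProfStmt := by
  intro η I hη
  have hs : 0 < √η := sqrt_pos.2 hη
  have hc : Continuous Th := Th_smooth.continuous
  have hd : Continuous (deriv Th) := Th_smooth.continuous_deriv (by simp)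
  set K : Set ℝ := Icc (-1) 1 ∩ ({t | |Th t| ≤ π / 2} ∩
    {t | √η * sin (Th t) ^ 2 / 16 ≤ |deriv Th t| * √I}) with hK
  have hKc : IsCompact K := isCompact_Icc.inter_right
    ((isClosed_le hc.abs continuous_const).inter (isClosed_le (by fun_prop) (by fun_prop)))
  have hcos : ∀ t ∈ K, 0 < cos (Th t) := fun t ht => by
    have h1 : |Th t| ≤ π / 2 := ht.2.1
    have h2 : √η * sin (Th t) ^ 2 / 16 ≤ |deriv Th t| * √I := ht.2.2
    rcases h1.lt_or_eq with h | h
    · exact cos_pos_of_mem_Ioo (abs_lt.1 h)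
    · have h3 : cos (Th t) = 0 := by rw [← cos_abs, h, cos_pi_div_two]
      have h4 : sin (Th t) ^ 2 = 1 := by rw [sin_sq, h3]; ring
      rw [Th_flat h, h4] at h2
      simp only [abs_zero, zero_mul] at h2
      linarith
  obtain ⟨B, hB⟩ := hKc.bddAbove_image (f := fun t => |deriv Th t| / cos (Th t))
    (hd.abs.continuousOn.div (continuous_cos.comp hc).continuousOn fun t ht => (hcos t ht).ne')
  refine ⟨2 * (|B| + 1), Th, by positivity, Th_smooth, Th_abs, fun _ => Th_one, fun _ => Th_neg,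
    fun t g hg hI ht => ?_⟩
  have h0 := cos_nonneg_of_mem_Icc (abs_le.1 ht)
  by_cases htK : t ∈ K
  · have h1 : |deriv Th t| ≤ B * cos (Th t) := (div_le_iff₀ (hcos t htK)).1 (hB ⟨t, htK, rfl⟩)
    have h2 : B * cos (Th t) ≤ (|B| + 1) * cos (Th t) :=
      mul_le_mul_of_nonneg_right (by linarith [le_abs_self B]) h0
    have h3 := mul_le_mul_of_nonneg_right (h1.trans h2) hg
    have h4 : 0 ≤ √η * sin (Th t) ^ 2 / 16 := by positivity
    linarith
  · have h1 : t ∈ Icc (-1 : ℝ) 1 := by
      constructor <;> by_contra h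
      · rw [Th_neg (not_le.1 h).le, abs_neg, abs_two] at ht
        linarith [c_pos]
      · rw [Th_one (not_le.1 h).le, abs_two] at ht
        linarith [c_pos]
    have h2 : |deriv Th t| * √I < √η * sin (Th t) ^ 2 / 16 := not_le.1 fun h => htK ⟨h1, ht, h⟩
    have h3 := mul_le_mul_of_nonneg_left (le_sqrt_of_sq_le hI) (abs_nonneg (deriv Th t))
    have h4 : 0 ≤ 2 * (|B| + 1) / 2 * g * cos (Th t) := by positivity
    linarith

variable {d : ℕ} {ι : Type} [Fintype ι] [DecidableEq ι] {X : Type} [TopologicalSpace X]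
  {C : Type} [Fintype C]

theorem pay_of_sq (M : Imm d ι X) {η v s : ℝ} (hη : 0 < η) (hs : 0 < s) (φ : C → X → ℝ) (p : X)
    (b g : C → ℝ) (h : ∀ c, |φ c p| ≤ π / 2 → 0 ≤ b c * g c ∧
      ‖M.grad (φ c) p‖ ≤ b c / 2 * g c * cos (φ c p) + √η * sin (φ c p) ^ 2 / 16)
    (hv : s + ∑ c, b c ^ 2 * g c ^ 2 ≤ v) : Pay M η φ (v - s / 2) p := by
  have hr : 0 < √η := sqrt_pos.2 hη
  set n : ℝ := (Fintype.card C : ℝ) with hn
  have hn0 : 0 ≤ n := Nat.cast_nonneg _
  set e : ℝ := √(s / (8 * (n + 1))) with he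
  have he0 : 0 < e := sqrt_pos.2 (by positivity)
  have he2 : e ^ 2 * (8 * (n + 1)) = s := by
    rw [he, sq_sqrt (by positivity)]; field_simp
  refine ⟨fun c => b c * g c / 2 + e, fun c hc => ?_, ?_⟩
  · have hc' : |φ c p| ≤ π / 2 := (G.mem_fin (φ := G.ev φ p)).1 hc
    have h1 := (h c hc').2
    have h2 := cos_nonneg_of_mem_Icc (abs_le.1 hc')
    have h3 := G.one_le_cos_add hc'
    have h4 : 0 < e * cos (φ c p) + √η * sin (φ c p) ^ 2 / 16 := by
      rcases h2.lt_or_eq with h5 | h5
      · positivity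
      · have h6 : 0 < sin (φ c p) ^ 2 := by linarith
        positivity
    change ‖M.grad (φ c) p‖ < (b c * g c / 2 + e) * cos (φ c p) + √η / 8 * sin (φ c p) ^ 2
    linarith
  · have h1 : ∑ c ∈ G.fin (G.ev φ p), (4 / 3 * (b c * g c / 2 + e) ^ 2 + (0 : C → ℝ) c) ≤
        ∑ c, (b c ^ 2 * g c ^ 2 + 8 / 3 * e ^ 2) := by
      refine (Finset.sum_le_sum fun c _ => ?_).trans
        (Finset.sum_le_sum_of_subset_of_nonneg (Finset.subset_univ _) fun c _ _ => by positivity)
      rw [Pi.zero_apply]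
      nlinarith [sq_nonneg (b c * g c / 2 - e), sq_nonneg (b c * g c)]
    refine h1.trans_lt ?_
    rw [Finset.sum_add_distrib, Finset.sum_const, Finset.card_univ, nsmul_eq_mul, ← hn]
    have h2 : 0 < e ^ 2 := by positivity
    nlinarith

theorem grad_prof (M : Imm d ι X) {f φ : X → ℝ} {Θ : ℝ → ℝ} {p : X} (hf : M.Sm f)
    (hΘ : ContDiff ℝ ∞ Θ) (h : φ =ᶠ[𝓝 p] fun q => Θ (f q)) :
    ‖M.grad φ p‖ = |deriv Θ (f p)| * √(M.pre.gam f f p) := by
  have h1 : M.grad φ p = deriv Θ (f p) • M.grad f p := by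
    ext a
    exact (Imm.D_congr h a).trans
      (Imm.D_comp (hf.diffAt p) (hΘ.differentiable (by simp) _).hasDerivAt a)
  rw [h1, norm_smul, Imm.gam_self_eq, sqrt_sq (norm_nonneg _), Real.norm_eq_abs]

end Crest.Agent.N228.T

end
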