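import Crest.Agent.N228.T.Top2
import Crest.Agent.N228.T.Glue
import Crest.Agent.N228.O.Net

/-!
# Row 228, the top layer (helper94): the recursion and the final cover
-/

set_option autoImplicit false
open MeasureTheory Set Filter Topology Function Real
open scoped ContDiff

noncomputable section

namespace Crest.Agent.N228.T
open Crest.Agent.N222 Crest.Agent.N222.Imm
open Crest.Agent.N228.G (Few Shr Shr1 ev)

theorem locFin {X κ : Type} [TopologicalSpace X] {S : κ → Set X} (i : κ → ℕ)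
    (hi : ∀ k, (i ⁻¹' {k}).Finite) {ρ : X → ℝ} (hρ : Continuous ρ) {P : ℝ} (hP : 0 < P)
    (h : ∀ c, ∀ p ∈ S c, (2 * i c - 1) * P ≤ ρ p + P) : LocallyFinite S := fun p => by
  obtain ⟨K, hK⟩ := exists_nat_gt ((ρ p + 1) / (2 * P) + 1)
  refine ⟨{q | ρ q < ρ p + 1}, (isOpen_lt hρ continuous_const).mem_nhds (lt_add_one (ρ p)),
    ((finite_Iic K).preimage' fun k _ => hi k).subset ?_⟩
  rintro c ⟨q, h1, h2 : ρ q < _⟩
  have h3 := h c q h1
  have h4 : (i c : ℝ) - 1 ≤ (ρ p + 1) / (2 * P) := by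
    rw [le_div_iff₀ (by positivity)]
    linarith
  exact show i c ≤ K by exact_mod_cast (show (i c : ℝ) ≤ K by linarith)

theorem fin_fst (G : ℕ → Type) [∀ k, Fintype (G k)] (k : ℕ) :
    ((Sigma.fst : (Σ k, G k) → ℕ) ⁻¹' {k}).Finite :=
  (finite_range (Sigma.mk k)).subset <| by
    rintro ⟨_, g⟩ rfl
    exact ⟨g, rfl⟩

theorem top : TopStmt := by
  intro n t0 t1 C c hn hc h0 h1 h2 r1 r2 hS hE ι _ _ X _ _ _ _ _ M0 m1 m2 hF
  classical
  obtain ⟨W, hW, r1⟩ := prun hc r1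
  obtain ⟨W', hW', r2⟩ := prun hc r2
  obtain ⟨Z, hZ, hop⟩ := op hc h0 h1 hW r1 hS
  obtain ⟨H, hH⟩ : ∃ H, H = Z + W' + 3 := ⟨_, rfl⟩
  obtain ⟨P, hP⟩ : ∃ P, P = H + W + 1 := ⟨_, rfl⟩
  have P0 : 0 < P := by linarith
  obtain ⟨ρ, ρ1, ρ2, ρ3⟩ := exists_rho m1 m2 one_pos
  obtain ⟨t, ht⟩ : ∃ t : ℕ → X → ℝ, ∀ k, t k = fun p => 1 / 2 * ρ p + -((2 * k - 1) * P) :=
    ⟨_, fun _ => rfl⟩
  have ρs : M0.Sm fun p => 1 / 2 * ρ p := (sm_const _).mul ρ1
  have t1' : ∀ k, M0.Sm (t k) := fun k => ht k ▸ ρs.add (sm_const _)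
  have t2 : ∀ k p, M0.pre.gam (t k) (t k) p ≤ 1 := fun k p => by
    have h3 : M0.pre.gam (t k) (t k) p = 1 / 4 * M0.pre.gam ρ ρ p := by
      simp only [ht, gam_apply, D_add_const, D_const_mul _ (ρ1.diffAt p), Finset.mul_sum]
      exact Finset.sum_congr rfl fun _ _ => by ring
    linarith [(ρ2 p).2]
  have t3 : ∀ k r, IsCompact {p | t k p ≤ r} := fun k r => by
    convert ρ3 (2 * (r + (2 * k - 1) * P)) using 1
    ext p
    simp only [ht, mem_ofPred_eq]
    constructor <;> intro h <;> linarith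
  have t4 : ∀ k p, t (k + 1) p = t k p - 2 * P := fun k p => by
    simp only [ht, Nat.cast_succ]
    ring
  have t5 : ∀ {i j} p, i < j → t j p + 2 * P ≤ t i p := fun {i j} p h => by
    have : (i : ℝ) + 1 ≤ j := by exact_mod_cast h
    simp only [ht]
    nlinarith
  have t6 : ∀ {i j} p, i ≤ j → t j p ≤ t i p := fun p h =>
    h.eq_or_lt.elim (fun h => h ▸ le_rfl) fun h => by linarith [t5 p h]
  choose G iG η0 hη0 hop using fun k => hop H (by linarith) ι X M0 m1 m2 (t k) (t1' k) (t2 k) (t3 k)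
  choose G' iG' hpc using fun k => piece hn hc h0 h2 hW hW' hZ r2 hE ι X M0 m1 m2 (t k) (t1' k)
    (t2 k) (t3 k) H P hH hP
  choose ηE hηE hpc using fun k => hpc k (G k) (G (k + 1))
  obtain ⟨η, hη⟩ : ∃ η : ℕ → ℝ, ∀ k, η k = min (η0 k) (min (ηE k) (ηE (k - 1))) := ⟨_, fun _ => rfl⟩
  let Inv : ℕ → St n X → Prop := fun k a =>
    Fm a.M a.V ∧ Same M0 a.M {p | -P ≤ t k p} ∧ ∀ p, -P ≤ t k p → a.V p = 1
  have step : ∀ k (a : {a // Inv k a}), ∃ (b : {a // Inv (k + 1) a}) (u φ : G k → X → ℝ)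
      (ψ : X → ℝ), OpOut (t k) Z H W t0 C c (η k) a.1 b.1 u φ ψ := by
    rintro k ⟨a, a1, a2, a3⟩
    obtain ⟨b, u, φ, ψ, o⟩ := hop k (η k) (hη k ▸ lt_min (hη0 k) (lt_min (hηE _) (hηE _)))
      (hη k ▸ min_le_left _ _) a a1
      (a2.mono fun p (hp : |t k p| ≤ H + W + 1) =>
        show -P ≤ t k p by linarith [neg_abs_le (t k p)])
      fun p hp => a3 p (by linarith [neg_abs_le (t k p)])
    refine ⟨⟨b, o.fm, (a2.mono fun p (hp : -P ≤ t (k + 1) p) =>
      show -P ≤ t k p by linarith [t4 k p]).trans (o.same.mono fun p (hp : -P ≤ t (k + 1) p) =>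
        show H + W ≤ |t k p| by linarith [t4 k p, le_abs_self (t k p)]),
      fun p hp => (o.V p ?_).trans (a3 p ?_)⟩, u, φ, ψ, o⟩
    · linarith [t4 k p, le_abs_self (t k p)]
    · linarith [t4 k p]
  choose nx u φ ψ o using step
  let s : ∀ k, {a // Inv k a} := fun k => Nat.rec
    ⟨⟨ι, M0, fun _ => 1⟩, ⟨m1, continuous_const, hF⟩, Same.refl _ _, fun _ _ => rfl⟩ nx k
  choose φ' Φ pc using fun k => hpc k (η k) (η (k + 1)) (s k).1 (s (k + 1)).1 (s (k + 1 + 1)).1
    _ _ _ _ _ _ (t (k + 1)) (hη k ▸ (min_le_right _ _).trans (min_le_left _ _))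
    (hη (k + 1) ▸ (min_le_right _ _).trans (min_le_right _ _)) (t4 k)
    ((s k).2.2.1.mono fun p (hp : 0 ≤ t k p) => show -P ≤ t k p by linarith) (o k (s k))
    (o (k + 1) (s (k + 1)))
  replace o := fun k => o k (s k)
  set ψ' : ℕ → X → ℝ := fun k => ψ k (s k)
  let φg : (Σ k, G k) ⊕ (Σ k, G' k) → X → ℝ :=
    Sum.elim (fun x => φ x.1 (s x.1) x.2) fun x => φ' x.1 x.2
  let j : ∀ i, G i ⊕ G (i + 1) ⊕ G' i → (Σ k, G k) ⊕ (Σ k, G' k) := fun i =>
    Sum.elim (fun g => .inl ⟨i, g⟩) (Sum.elim (fun g => .inl ⟨i + 1, g⟩) fun g => .inr ⟨i, g⟩)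
  have hj : ∀ i x, φg (j i x) =
      Sum.elim (φ i (s i)) (Sum.elim (φ (i + 1) (s (i + 1))) (φ' i)) x := by
    rintro i (g | g | g) <;> rfl
  have pi2 : π / 2 < 2 := by linarith [pi_lt_four]
  have nf : ∀ {x : ℝ}, x = -2 → ¬|x| ≤ π / 2 := fun h h' => by
    rw [h, abs_neg, abs_two] at h'
    linarith
  have lo : ∀ {i p}, 0 ≤ ψ' i p → -Z < t i p := fun {i p} h => lt_of_not_ge fun h' => by
    linarith [show ψ' i p = -2 from (o i).dn p h']
  have hi : ∀ {i p}, ψ' i p ≤ 1 → t i p < Z := fun {i p} h => lt_of_not_ge fun h' => by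
    linarith [show ψ' i p = 2 from (o i).up p h']
  refine glue X (n - 2) C _ φg ψ' (fun i k p => if h : ∃ x, j i x = k then Φ i h.choose p else φg k p)
    ?_ (fun i => (o i).cψ) ?_ (fun p => ?_) (fun p => ?_) ?_ (fun i k p h h' => ?_)
    (fun i p S h hS => ?_) (fun i k => ?_) fun i p h h' => ⟨fun k => ?_, fun S hS => ?_⟩
  · rintro (⟨k, g⟩ | ⟨k, g⟩)
    exacts [((o k).sφ g).continuous, (pc k).cont g]
  · refine locFin (Sum.elim Sigma.fst Sigma.fst) (fun k => ?_) ρs.continuous P0 ?_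
    · refine (((fin_fst G k).image Sum.inl).union ((fin_fst G' k).image Sum.inr)).subset ?_
      rintro (x | x) hx
      exacts [.inl ⟨x, hx, rfl⟩, .inr ⟨x, hx, rfl⟩]
    · rintro (⟨k, g⟩ | ⟨k, g⟩) p hp <;> rw [mem_ofPred_eq] at hp
      · have h3 : |t k p| < H + W - 1 := lt_of_not_ge fun h => by
          linarith [show φg (.inl ⟨k, g⟩) p = -2 from (o k).far g p h]
        have h4 := neg_abs_le (t k p)
        rw [ht] at h3 h4
        exact show (2 * (k : ℝ) - 1) * P ≤ _ by linarith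
      · have h3 : |t k p - P| < W + W' + 2 := lt_of_not_ge fun h => by
          linarith [show φg (.inr ⟨k, g⟩) p = -2 from (pc k).far g p h]
        have h4 := neg_abs_le (t k p - P)
        rw [ht] at h3 h4
        exact show (2 * (k : ℝ) - 1) * P ≤ _ by linarith
  · obtain ⟨k, k1, k2⟩ : ∃ k, 0 ≤ t k p ∧ t k p ≤ 2 * P := by
      have h3 : 0 ≤ (1 / 2 * ρ p + P) / (2 * P) := by have := (ρ2 p).1; positivity
      have h4 := Nat.floor_le h3
      have h5 := (Nat.lt_floor_add_one ((1 / 2 * ρ p + P) / (2 * P))).le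
      rw [le_div_iff₀ (by positivity)] at h4
      rw [div_le_iff₀ (by positivity)] at h5
      exact ⟨⌊(1 / 2 * ρ p + P) / (2 * P)⌋₊, by rw [ht]; linarith, by rw [ht]; linarith⟩
    by_cases h : t k p ≤ H - 1
    · obtain ⟨g, hg⟩ := (o k).face p (abs_le.2 ⟨by linarith, h⟩)
      exact ⟨.inl ⟨k, g⟩, hg⟩
    by_cases h' : -(H - 1) ≤ t (k + 1) p
    · obtain ⟨g, hg⟩ := (o (k + 1)).face p (abs_le.2 ⟨h', by linarith [t4 k p]⟩)
      exact ⟨.inl ⟨k + 1, g⟩, hg⟩
    · obtain ⟨g, hg⟩ := (pc k).face p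
        (abs_le.2 ⟨by linarith [not_le.1 h], by linarith [not_le.1 h', t4 k p]⟩)
      exact ⟨.inr ⟨k, g⟩, hg⟩
  · rw [show ψ' 0 p = 2 from (o 0).up p (by rw [ht]; simp only [Nat.cast_zero]; linarith [(ρ2 p).1])]
    norm_num
  · refine locFin id (fun k => finite_singleton k) ρs.continuous P0 fun k p hp => ?_
    have h3 := lo hp
    rw [ht] at h3
    exact show (2 * (k : ℝ) - 1) * P ≤ _ by linarith
  · rw [show ψ' i p = 2 from (o i).up p (by linarith [lo h', t5 p h])]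
    norm_num
  · have h3 : -Z < t i p := lt_of_not_ge fun h' => by
      linarith [show ψ' i p = -2 from (o i).dn p h', neg_abs_le (ψ' i p)]
    have h4 := hi ((le_abs_self _).trans h)
    refine few_ext ((o i).few p h) (fun g => Sum.inl ⟨i, g⟩) S ?_
    rintro (⟨k, g⟩ | ⟨k, g⟩) hk
    · rcases lt_trichotomy k i with h5 | rfl | h5
      · exact absurd (hS _ hk) (nf ((o k).far g p (by linarith [t5 p h5, le_abs_self (t k p)])))
      · exact ⟨g, rfl, hS _ hk⟩
      · exact absurd (hS _ hk) (nf ((o k).far g p (by linarith [t5 p h5, neg_abs_le (t k p)])))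
    · refine absurd (hS _ hk) (nf ((pc k).far g p ?_))
      rcases lt_or_ge k i with h5 | h5
      · linarith [t5 p h5, le_abs_self (t k p - P)]
      · linarith [t6 p h5, neg_abs_le (t k p - P)]
  · by_cases h : ∃ x, j i x = k
    · simpa only [dif_pos h] using (pc i).cΦ _
    · simp only [dif_neg h]
      rcases k with ⟨k, g⟩ | ⟨k, g⟩
      exacts [((o k).sφ g).continuous.continuousOn, ((pc k).cont g).continuousOn]
  · by_cases h3 : ∃ x, j i x = k
    · have := (pc i).shr h3.choose p h h'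
      rw [← hj, h3.choose_spec] at this
      simpa only [dif_pos h3] using this
    · simpa only [dif_neg h3] using Shr1.refl _
  · have h3 := lo h
    have h4 : t (i + 1) p < Z := hi (h'.trans zero_le_one)
    refine few_ext ((pc i).few p h h') (j i) S fun k hk => ?_
    have h5 := hS k hk
    by_cases h6 : ∃ x, j i x = k
    · exact ⟨_, h6.choose_spec, by simpa only [dif_pos h6] using h5⟩
    simp only [dif_neg h6] at h5
    refine absurd h5 (nf ?_)
    rcases k with ⟨k, g⟩ | ⟨k, g⟩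
    · rcases lt_trichotomy k i with h7 | rfl | h7
      · exact (o k).far g p (by linarith [t5 p h7, le_abs_self (t k p)])
      · exact absurd ⟨.inl g, rfl⟩ h6
      · rcases (Nat.succ_le_of_lt h7).eq_or_lt with rfl | h8
        · exact absurd ⟨.inr (.inl g), rfl⟩ h6
        · exact (o k).far g p (by linarith [t5 p h8, neg_abs_le (t k p)])
    · rcases lt_trichotomy k i with h7 | rfl | h7
      · exact (pc k).far g p (by linarith [t5 p h7, le_abs_self (t k p - P)])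
      · exact absurd ⟨.inr (.inr g), rfl⟩ h6
      · exact (pc k).far g p
          (by linarith [t6 p (Nat.succ_le_of_lt h7), neg_abs_le (t k p - P)])

end Crest.Agent.N228.T

end
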