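import Crest.Agent.N228.T.Prof

/-!
# Row 228, the top layer (helper94): states, runs with phases
-/

set_option autoImplicit false
open MeasureTheory Set Filter Topology Function Real
open scoped ContDiff

noncomputable section

namespace Crest.Agent.N228.T
open Crest.Agent.N222 Crest.Agent.N222.Imm
open Crest.Agent.N228.G (Few Shr Shr1 ev)

/-- a state -/
structure St (n : ℕ) (X : Type) [TopologicalSpace X] : Type 1 where
  ι : Type
  [fin : Fintype ι]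
  [dec : DecidableEq ι]
  M : Imm n ι X
  V : X → ℝ

attribute [instance] St.fin St.dec

section Basic

variable {n : ℕ} {X : Type} [TopologicalSpace X] {C C' : Type}

/-- squared gradient -/
abbrev St.Γ (a : St n X) (f : X → ℝ) (p : X) : ℝ := a.M.pre.gam f f p

theorem St.norm_grad (a : St n X) (f : X → ℝ) (p : X) : ‖a.M.grad f p‖ = √(a.Γ f p) := by
  rw [St.Γ, gam_self_eq, Real.sqrt_sq (norm_nonneg _)]

theorem St.Γ_const (a : St n X) {f : X → ℝ} {p : X} {r : ℝ} (h : f =ᶠ[𝓝 p] fun _ => r) :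
    a.Γ f p = 0 := by
  simp only [St.Γ, gam_apply, D_congr h, D_const, mul_zero, Finset.sum_const_zero]

/-- the metric of `b` is at least `1 / c` times the metric of `a` -/
def St.Le (a b : St n X) (c : ℝ) (p : X) : Prop := ∀ h : X → ℝ, a.M.Sm h → b.Γ h p ≤ c * a.Γ h p

/-- the slopes of the phases `φ` are controlled by the slopes of `u` -/
def Slope (a : St n X) (η : ℝ) (u φ : C → X → ℝ) (p : X) : Prop :=
  ∀ g, |φ g p| ≤ π / 2 →
    ‖a.M.grad (φ g) p‖ ≤ 1 / 2 * √(a.Γ (u g) p) * cos (φ g p) + √η * sin (φ g p) ^ 2 / 16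

theorem Slope.mono {a : St n X} {η η' : ℝ} {u φ : C → X → ℝ} {p : X} (h : Slope a η u φ p)
    (hη : η ≤ η') : Slope a η' u φ p := fun g hg => (h g hg).trans <| by
  have := mul_le_mul_of_nonneg_right (Real.sqrt_le_sqrt hη) (sq_nonneg (sin (φ g p)))
  linarith

theorem Slope.congr {a : St n X} {η : ℝ} {u φ φ' : C → X → ℝ} {p : X} (h : Slope a η u φ p)
    (e : ∀ g, φ' g =ᶠ[𝓝 p] φ g) : Slope a η u φ' p := fun g hg => by
  rw [(e g).self_of_nhds] at hg ⊢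
  rw [a.norm_grad, St.Γ, gam_congr (e g) (e g), ← St.Γ, ← a.norm_grad]
  exact h g hg

variable [Fintype C] [Fintype C']

theorem Slope.pay {a : St n X} {η s v : ℝ} {u φ : C → X → ℝ} {p : X} (h : Slope a η u φ p)
    (hη : 0 < η) (hs : 0 < s) (hv : s + ∑ g, a.Γ (u g) p ≤ v) : Pay a.M η φ (v - s / 2) p := by
  refine pay_of_sq a.M hη hs φ p (fun _ => 1) (fun g => √(a.Γ (u g) p))
    (fun g hg => ⟨by positivity, h g hg⟩) ?_
  simpa only [one_pow, one_mul, Real.sq_sqrt (gam_self_nonneg _ _)] using hv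

/-- the class only sees the finite colours -/
theorem Cls.ext {a b : St n X} {η η' v v' : ℝ} {φ : C → X → ℝ} {φ' : C' → X → ℝ} {p : X}
    (h : Cls a.M η φ v p) (hη : η ≤ η') (hv : v ≤ v') (j : C → C') (hj : Injective j)
    (e : ∀ c, φ' (j c) = φ c) (hΓ : ∀ f, b.Γ f p = a.Γ f p)
    (ho : ∀ c', |φ' c' p| ≤ π / 2 → ∃ c, j c = c') : Cls b.M η' φ' v' p := by
  classical
  have h1 : G.fin (ev φ' p) = (G.fin (ev φ p)).map ⟨j, hj⟩ := by
    ext c'
    rw [Finset.mem_map, G.mem_fin]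
    refine ⟨fun h => ?_, ?_⟩
    · obtain ⟨c, rfl⟩ := ho c' h
      exact ⟨c, G.mem_fin.2 (by simpa only [ev, e] using h), rfl⟩
    · rintro ⟨c, hc, rfl⟩
      simpa only [ev, Embedding.coeFn_mk, e] using G.mem_fin.1 hc
  rcases h with h | ⟨β, h2, h3⟩
  · exact Or.inl (by rwa [Few, h1, Finset.card_map])
  · refine Or.inr ⟨extend j β 0, fun c' hc' => ?_, ?_⟩
    · rw [h1, Finset.mem_map] at hc'
      obtain ⟨c, hc, rfl⟩ := hc'
      have h4 := h2 c hc
      have h5 := mul_le_mul_of_nonneg_right (Real.sqrt_le_sqrt hη) (sq_nonneg (sin (φ c p)))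
      simp only [G.gr, G.rate, ev, Embedding.coeFn_mk, e, hj.extend_apply, St.norm_grad, hΓ] at h4 ⊢
      linarith
    · rw [h1, Finset.sum_map]
      simp only [Embedding.coeFn_mk, hj.extend_apply, Pi.zero_apply] at h3 ⊢
      linarith

theorem few_ext {κ : Type} {m : ℕ} {a : C → ℝ} (h : Few m a) (j : C → κ) (S : Finset κ)
    (hS : ∀ k ∈ S, ∃ c, j c = k ∧ |a c| ≤ π / 2) : S.card ≤ m - 2 := by
  classical
  have : S ⊆ (G.fin a).image j := fun k hk => by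
    obtain ⟨c, rfl, hc⟩ := hS k hk
    exact Finset.mem_image_of_mem j (G.mem_fin.2 hc)
  have h1 := (Finset.card_le_card this).trans Finset.card_image_le
  unfold Few at h
  omega

end Basic

/-- the result of a run, with phases -/
structure RunOut {n : ℕ} {X : Type} [MetricSpace X] [MeasurableSpace X] {G J : Type} [Fintype G]
    [Fintype J] (θ : X → ℝ) (W s' C c η : ℝ) (f0 : J → X → ℝ) (a b : St n X)
    (u φ : G → X → ℝ) : Prop where
  same : Same a.M b.M {p | W ≤ θ p}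
  fm : Fm b.M b.V
  V : ∀ p, W ≤ θ p → b.V p = a.V p
  su : ∀ g, a.M.Sm (u g)
  sφ : ∀ g, a.M.Sm (φ g)
  face : ∀ p, θ p ≤ 0 → ∃ g, π / 2 < φ g p ∧ ∀ q, -(π / 2) ≤ φ g q → dist p q ≤ C
  far : ∀ g p, W - 1 ≤ θ p → φ g p = -2
  cst : ∀ g p, W - 1 < θ p → ∃ r, u g =ᶠ[𝓝 p] fun _ => r
  le : ∀ p, θ p ≤ W → a.Le b c p
  pay : ∀ p, θ p ≤ W → s' + ∑ j, b.Γ (f0 j) p + ∑ g, b.Γ (u g) p ≤ b.V p
  slope : ∀ p (e : St n X), e.M.ch = a.M.ch → b.Le e c p → Slope e η u φ p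

/-- a run, with phases -/
def PRun (n : ℕ) (s s' C c W : ℝ) : Prop :=
  AllLen n fun _ _ _ X _ _ _ _ M0 => ∀ θ : X → ℝ, M0.Sm θ → (∀ p, M0.pre.gam θ θ p ≤ 1) →
    IsCompact {p | θ p ≤ W} → ∃ (G : Type) (_ : Fintype G), ∀ η : ℝ, 0 < η →
    ∀ (a : St n X) (J : Type) [Fintype J] (f0 : J → X → ℝ), a.M.ch = M0.ch → Fm a.M a.V →
      (∀ j, a.M.Sm (f0 j)) →
      (∀ f : X → ℝ, a.M.Sm f → ∀ p, θ p ≤ W → a.Γ f p ≤ c * M0.pre.gam f f p) →
      (∀ p, θ p ≤ W → s + ∑ j, a.Γ (f0 j) p ≤ a.V p) →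
      ∃ (b : St n X) (u φ : G → X → ℝ), RunOut θ W s' C c η f0 a b u φ

theorem prun {n : ℕ} {s s' C c : ℝ} (hc : 1 ≤ c) (h : FRun n s s' C c) :
    ∃ W, 1 < W ∧ PRun n s s' C c W := by
  obtain ⟨W, hW, h⟩ := h
  refine ⟨W, hW, fun ι _ _ X _ _ _ _ _ M0 h1 h2 θ h3 h4 h5 => ?_⟩
  obtain ⟨G, _, h⟩ := h ι X M0 h1 h2 θ h3 h4 h5
  refine ⟨G, inferInstance, fun η hη a J _ f0 a1 a2 a3 a4 a5 => ?_⟩
  obtain ⟨I, h⟩ := h a.ι a.M a.V J f0 a1 a2 a3 a4 a5
  obtain ⟨b, Θ, hb, t1, -, t3, t4, t5⟩ := prof η (c * I) hη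
  obtain ⟨κ, _, _, M', V', f, b1, b2, b3, b4, b5, b6, b7⟩ := h b
  have hθ : Continuous θ := h3.continuous
  have e1 : ∀ (e : St n X), e.M.ch = a.M.ch → ∀ g p, e.Γ (fun q => b * f g q) p =
      b ^ 2 * e.Γ (f g) p := fun e he g p => by
    have : e.M.Sm (f g) := by rw [Imm.Sm, he]; exact b4 g
    simp only [St.Γ, gam_apply, D_const_mul b (this.diffAt p), Finset.mul_sum]
    exact Finset.sum_congr rfl fun _ _ => by ring
  have pi2 : π / 2 < 2 := by linarith [pi_lt_four]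
  refine ⟨⟨κ, M', V'⟩, fun g q => b * f g q, fun g q => Θ (f g q), b1, b2, b3,
    fun g => (sm_const b).mul (b4 g), fun g => (b4 g).comp t1, fun p hp => ?_,
    fun g p hp => t4 _ (b5.far g p hp).le, fun g p hp => ⟨b * -1, ?_⟩,
    fun p hp h hh => b6 h hh p hp, fun p hp => ?_, fun p e he hle g hg => ?_⟩
  · obtain ⟨g, g1, g2⟩ := b5.face p hp
    refine ⟨g, by rwa [t3 _ g1], fun q hq => g2 q (lt_of_not_ge fun h' => ?_)⟩
    rw [t4 _ h'] at hq
    linarith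
  · filter_upwards [(isOpen_lt continuous_const hθ).mem_nhds hp] with q hq
    rw [b5.far g q (le_of_lt hq)]
  · simp only [e1 ⟨κ, M', V'⟩ b1.ch, ← Finset.mul_sum]
    exact (b7 p hp).2
  · have hp : θ p ≤ W := by
      by_contra h'
      rw [t4 _ (b5.far g p (by linarith [not_le.1 h'])).le, abs_neg, abs_two] at hg
      linarith
    have hs : e.M.Sm (f g) := by rw [Imm.Sm, he]; exact b4 g
    have h6 : e.Γ (f g) p ≤ c * I := (hle _ (b1.sm_iff.2 (b4 g))).trans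
      (mul_le_mul_of_nonneg_left ((b7 p hp).1 g) (by linarith))
    rw [grad_prof e.M hs t1 (EventuallyEq.refl _ _), e1 e he, Real.sqrt_mul (sq_nonneg b),
      Real.sqrt_sq hb.le]
    refine (t5 _ _ (Real.sqrt_nonneg _) (by rwa [Real.sq_sqrt (gam_self_nonneg _ _)]) hg).trans_eq ?_
    ring

end Crest.Agent.N228.T

end
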