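import Crest.Agent.N228.T.Top1

/-!
# Row 228, the top layer (helper94): a run with its separator; a piece between two separators
-/

set_option autoImplicit false
open MeasureTheory Set Filter Topology Function Real
open scoped ContDiff

noncomputable section

namespace Crest.Agent.N228.T
open Crest.Agent.N222 Crest.Agent.N222.Imm
open Crest.Agent.N228.G (Few Shr Shr1 ev)

/-- a smooth absolute value -/
theorem exists_abs {n : ℕ} {ι X : Type} [Fintype ι] [DecidableEq ι] [TopologicalSpace X]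
    {M : Imm n ι X} {t : X → ℝ} (ht : M.Sm t) (h1 : ∀ p, M.pre.gam t t p ≤ 1) (a H : ℝ) :
    ∃ θ, M.Sm θ ∧ (∀ p, M.pre.gam θ θ p ≤ 1) ∧
      ∀ p, |t p - a| - H ≤ θ p ∧ θ p ≤ |t p - a| - H + 1 := by
  have h0 : ∀ x : ℝ, 0 < 1 + (x - a) ^ 2 := fun x => by positivity
  have hs : ContDiff ℝ ∞ fun x : ℝ => √(1 + (x - a) ^ 2) - H :=
    (ContDiff.sqrt (by fun_prop) fun x => (h0 x).ne').sub contDiff_const
  refine ⟨fun p => √(1 + (t p - a) ^ 2) - H, ht.comp hs, fun p => ?_, fun p => ⟨?_, ?_⟩⟩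
  · have hd : HasDerivAt (fun x : ℝ => √(1 + (x - a) ^ 2) - H)
        ((t p - a) / √(1 + (t p - a) ^ 2)) (t p) := by
      have := ((((hasDerivAt_id (t p)).sub_const a).pow 2).const_add 1).sqrt (h0 _).ne'
      refine (this.sub_const H).congr_deriv ?_
      simp only [id, Pi.pow_apply]
      field_simp
      norm_num [mul_comm]
    have h2 : ((t p - a) / √(1 + (t p - a) ^ 2)) ^ 2 ≤ 1 := by
      rw [div_pow, Real.sq_sqrt (h0 _).le, div_le_one (h0 _)]
      linarith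
    have h3 : M.pre.gam (fun p => √(1 + (t p - a) ^ 2) - H) (fun p => √(1 + (t p - a) ^ 2) - H) p =
        ((t p - a) / √(1 + (t p - a) ^ 2)) ^ 2 * M.pre.gam t t p := by
      simp only [gam_apply, D_comp (ht.diffAt p) hd, Finset.mul_sum]
      exact Finset.sum_congr rfl fun _ _ => by ring
    rw [h3]
    exact mul_le_one₀ h2 (gam_self_nonneg _ _) (h1 p)
  · exact sub_le_sub_right (Real.abs_le_sqrt (by linarith)) H
  · have : √(1 + (t p - a) ^ 2) ≤ |t p - a| + 1 := Real.sqrt_le_iff.2 ⟨by positivity, by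
      nlinarith [sq_abs (t p - a), abs_nonneg (t p - a)]⟩
    linarith

section

variable {n : ℕ} {X : Type} [TopologicalSpace X] {a b e : St n X} {c : ℝ} {p : X} {U : Set X}

theorem St.Le.of_eq (hc : 1 ≤ c) (h : ∀ f, b.Γ f p = a.Γ f p) : a.Le b c p := fun f _ => by
  rw [h]
  exact le_mul_of_one_le_left (gam_self_nonneg _ _) hc

theorem St.Le.left (h : b.Le e c p) (hc : b.M.ch = a.M.ch) (h' : ∀ f, b.Γ f p = a.Γ f p) :
    a.Le e c p := fun f hf => by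
  rw [← h']
  exact h f (by rw [Imm.Sm, hc]; exact hf)

end

/-- a run on `|t| ≤ H + W`, with a separator in `|t| ≤ Z` -/
structure OpOut {n : ℕ} {X : Type} [MetricSpace X] [MeasurableSpace X] {G : Type} [Fintype G]
    (t : X → ℝ) (Z H W t0 C c η : ℝ) (a b : St n X) (u φ : G → X → ℝ) (ψ : X → ℝ) : Prop where
  same : Same a.M b.M {p | H + W ≤ |t p|}
  fm : Fm b.M b.V
  V : ∀ p, H + W ≤ |t p| → b.V p = a.V p
  su : ∀ g, a.M.Sm (u g)
  sφ : ∀ g, a.M.Sm (φ g)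
  cψ : Continuous ψ
  face : ∀ p, |t p| ≤ H - 1 → ∃ g, π / 2 < φ g p ∧ ∀ q, -(π / 2) ≤ φ g q → dist p q ≤ C
  far : ∀ g p, H + W - 1 ≤ |t p| → φ g p = -2
  cst : ∀ g p, H + W - 1 < |t p| → ∃ r, u g =ᶠ[𝓝 p] fun _ => r
  le : ∀ p, Z ≤ |t p| → a.Le b c p
  pay : ∀ p, Z ≤ |t p| → |t p| ≤ H + W + 1 → t0 + ∑ g, b.Γ (u g) p ≤ b.V p
  slope : ∀ p (e : St n X), Z ≤ |t p| → e.M.ch = a.M.ch → b.Le e c p → Slope e η u φ p
  cls : ∀ p, |t p| ≤ Z → Cls b.M η φ (b.V p - t0 / 8) p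
  up : ∀ p, Z ≤ t p → ψ p = 2
  dn : ∀ p, t p ≤ -Z → ψ p = -2
  few : ∀ p, |ψ p| ≤ 1 → Few n (ev φ p)

/-- existence of runs with separators -/
def Op (n : ℕ) (Z H W t0 C c : ℝ) : Prop :=
  AllLen n fun _ _ _ X _ _ _ _ M0 => ∀ t : X → ℝ, M0.Sm t → (∀ p, M0.pre.gam t t p ≤ 1) →
    (∀ r, IsCompact {p | t p ≤ r}) → ∃ (G : Type) (_ : Fintype G) (η0 : ℝ), 0 < η0 ∧
    ∀ η : ℝ, 0 < η → η ≤ η0 → ∀ a : St n X, Fm a.M a.V → Same M0 a.M {p | |t p| ≤ H + W + 1} →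
      (∀ p, |t p| ≤ H + W + 1 → a.V p = 1) →
      ∃ (b : St n X) (u φ : G → X → ℝ) (ψ : X → ℝ), OpOut t Z H W t0 C c η a b u φ ψ

theorem op {n : ℕ} {W t0 C c : ℝ} (hc : 1 ≤ c) (h0 : 0 < t0) (h1 : t0 < 1) (hW : 1 < W)
    (hR : PRun n 1 t0 C c W) (hS : FSep n) :
    ∃ Z, 0 < Z ∧ ∀ H, Z + 1 ≤ H → Op n Z H W t0 C c := by
  obtain ⟨Ws, hWs, hS⟩ := hS (t0 / 2) (half_pos h0)
  have c0 : 0 < c := by linarith
  refine ⟨c * Ws, by positivity, fun H hH ι _ _ X _ _ _ _ _ M0 m1 m2 t t1 t2 t3 => ?_⟩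
  obtain ⟨θ, θ1, θ2, θ3⟩ := exists_abs t1 t2 0 H
  simp only [sub_zero] at θ3
  obtain ⟨G, _, hR⟩ := hR ι X M0 m1 m2 θ θ1 θ2 ((t3 (H + W)).of_isClosed_subset
    (isClosed_le θ1.continuous continuous_const) fun p (hp : θ p ≤ W) =>
      show t p ≤ _ by linarith [(θ3 p).1, le_abs_self (t p)])
  obtain ⟨η0, hη0, hS⟩ := hS (Fintype.card G)
  refine ⟨G, inferInstance, η0, hη0, fun η hη hη' a a1 a2 a3 => ?_⟩
  have z1 : ∀ p, θ p ≤ W → |t p| ≤ H + W + 1 := fun p hp => by linarith [(θ3 p).1]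
  obtain ⟨b, u, φ, r⟩ := hR η hη a Empty (fun j => j.elim) a2.ch a1 (fun j => j.elim)
    (fun f _ p hp => by
      rw [St.Γ, a2.gam' (z1 p hp)]
      exact le_mul_of_one_le_left (gam_self_nonneg _ _) hc)
    fun p hp => by simp [a3 p (z1 p hp)]
  have e1 : ∀ p, |c⁻¹ * t p| ≤ Ws ↔ |t p| ≤ c * Ws := fun p => by
    rw [abs_mul, abs_of_pos (inv_pos.2 c0), inv_mul_le_iff₀ c0]
  have e2 : ∀ p, Ws ≤ |c⁻¹ * t p| ↔ c * Ws ≤ |t p| := fun p => by
    rw [abs_mul, abs_of_pos (inv_pos.2 c0), le_inv_mul_iff₀ c0]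
  have s0 : M0.Sm fun p => c⁻¹ * t p := (sm_const _).mul t1
  have pay : ∀ p, θ p ≤ W → t0 + ∑ g, b.Γ (u g) p ≤ b.V p := fun p hp => by simpa using r.pay p hp
  obtain ⟨κ, _, _, M', V', ψ, φ', s1, s2, s3, s4, s5, s6, s7, s8, s9, s10⟩ :=
    hS η hη hη' b.ι X b.M b.V (fun p => c⁻¹ * t p) G φ r.fm (r.same.sm_iff.2 (a2.sm_iff.2 s0))
      (fun g => r.same.sm_iff.2 (r.sφ g)) le_rfl
      (by simpa only [inv_mul_le_iff₀ c0] using t3 (c * Ws)) fun p hp => by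
      have hp' : θ p ≤ W := by linarith [(e1 p).1 hp, (θ3 p).2]
      refine ⟨(r.le p hp' _ (a2.sm_iff.2 s0)).trans ?_, (r.slope p b r.same.ch
        (St.Le.of_eq hc fun _ => rfl)).pay hη h0 (pay p hp')⟩
      have h3 : M0.pre.gam (fun p => c⁻¹ * t p) (fun p => c⁻¹ * t p) p =
          c⁻¹ * (c⁻¹ * M0.pre.gam t t p) := by
        simp only [gam_apply, D_const_mul _ (t1.diffAt p), Finset.mul_sum]
        exact Finset.sum_congr rfl fun _ _ => by ring
      rw [St.Γ, a2.gam' (z1 p hp'), h3, mul_inv_cancel_left₀ c0.ne']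
      exact mul_le_one₀ (inv_le_one_of_one_le₀ hc) (gam_self_nonneg _ _) (t2 p)
  have g1 : ∀ p, c * Ws ≤ |t p| → ∀ f, St.Γ ⟨κ, M', V'⟩ f p = b.Γ f p := fun p hp f =>
    s1.gam' ((e2 p).2 hp) f f
  refine ⟨⟨κ, M', V'⟩, u, φ', ψ, (r.same.mono fun p (hp : H + W ≤ |t p|) => ?_).trans
      (s1.mono fun p (hp : H + W ≤ |t p|) => (e2 p).2 (by linarith)), s2, fun p hp => ?_, r.su,
    fun g => r.same.sm_iff.1 (s4 g), s3, fun p hp => ?_, fun g p hp => ?_,
    fun g p hp => r.cst g p (by linarith [(θ3 p).1]), fun p hp f hf => ?_, fun p hp hp' => ?_,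
    fun p e hp he hl => ?_, fun p hp => ?_, fun p hp => s7 p ((le_inv_mul_iff₀ c0).2 hp),
    fun p hp => s8 p ((inv_mul_le_iff₀ c0).2 (by linarith)), s10⟩
  · exact show W ≤ θ p by linarith [(θ3 p).1]
  · exact (s6 p ((e2 p).2 (by linarith))).1.trans (r.V p (by linarith [(θ3 p).1]))
  · obtain ⟨g, g1, g2⟩ := r.face p (by linarith [(θ3 p).2])
    exact ⟨g, (s5 g p).1 g1, fun q hq => g2 q (le_of_not_gt fun h => hq.not_gt ((s5 g q).2 h))⟩
  · exact ((s6 p ((e2 p).2 (by linarith))).2 g).self_of_nhds.trans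
      (r.far g p (by linarith [(θ3 p).1]))
  · rw [g1 p hp]
    rcases le_total (θ p) W with h | h
    · exact r.le p h f hf
    · exact St.Le.of_eq hc (fun f => r.same.gam' h f f) f hf
  · simp only [g1 p hp]
    rw [(s6 p ((e2 p).2 hp)).1]
    rcases le_total (θ p) W with h | h
    · exact pay p h
    · rw [r.V p h, a3 p hp', Finset.sum_eq_zero fun g _ =>
        (r.cst g p (by linarith)).elim fun _ h => b.Γ_const h]
      linarith
  · exact (r.slope p e he (hl.left s1.ch (g1 p hp))).congr (s6 p ((e2 p).2 hp)).2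
  · have := s9 p ((e1 p).2 hp)
    rwa [show t0 / 2 / 4 = t0 / 8 by ring] at this

/-- the colours of a gap and the final phases of a piece -/
structure PcOut (n : ℕ) {X : Type} [MetricSpace X] {G G1 G' : Type} [Fintype G] [Fintype G1]
    [Fintype G'] (t : X → ℝ) (P W W' C : ℝ) (φ : G → X → ℝ) (φ1 : G1 → X → ℝ) (ψ ψ1 : X → ℝ)
    (φ' : G' → X → ℝ) (Φ : G ⊕ G1 ⊕ G' → X → ℝ) : Prop where
  cont : ∀ g, Continuous (φ' g)
  face : ∀ p, |t p - P| ≤ W + 2 → ∃ g, π / 2 < φ' g p ∧ ∀ q, -(π / 2) ≤ φ' g q → dist p q ≤ C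
  far : ∀ g p, W + W' + 2 ≤ |t p - P| → φ' g p = -2
  cΦ : ∀ k, ContinuousOn (Φ k) {p | 0 ≤ ψ p ∧ ψ1 p ≤ 0}
  shr : ∀ k p, 0 ≤ ψ p → ψ1 p ≤ 0 → Shr1 (Sum.elim φ (Sum.elim φ1 φ') k p) (Φ k p)
  few : ∀ p, 0 ≤ ψ p → ψ1 p ≤ 0 → Few n (ev Φ p)

theorem piece {n : ℕ} {Z W W' t0 t1 C c : ℝ} (hn : 2 ≤ n) (hc : 1 ≤ c) (h0 : 0 < t0) (h1 : 0 < t1)
    (hW : 1 < W) (hW' : 1 < W') (hZ : 0 < Z) (hR : PRun n t0 t1 C c W') (hE : FEnd n) :
    AllLen n fun _ _ _ X _ _ _ _ M0 => ∀ t : X → ℝ, M0.Sm t → (∀ p, M0.pre.gam t t p ≤ 1) →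
    (∀ r, IsCompact {p | t p ≤ r}) → ∀ H P : ℝ, H = Z + W' + 3 → P = H + W + 1 →
    ∃ (G' : Type) (_ : Fintype G'), ∀ (G G1 : Type) [Fintype G] [Fintype G1], ∃ ηE : ℝ, 0 < ηE ∧
    ∀ (η η1 : ℝ) (a0 a1 a2 : St n X) (u φ : G → X → ℝ) (u1 φ1 : G1 → X → ℝ) (ψ ψ1 t' : X → ℝ),
      η ≤ ηE → η1 ≤ ηE → (∀ p, t' p = t p - 2 * P) → Same M0 a0.M {p | 0 ≤ t p} →
      OpOut t Z H W t0 C c η a0 a1 u φ ψ → OpOut t' Z H W t0 C c η1 a1 a2 u1 φ1 ψ1 →
      ∃ φ' Φ, PcOut n (G' := G') t P W W' C φ φ1 ψ ψ1 φ' Φ := by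
  intro ι _ _ X _ _ _ _ _ M0 m1 m2 t t1' t2 t3 H P hH hP
  obtain ⟨θ, θ1, θ2, θ3⟩ := exists_abs t1' t2 P (W + 3)
  obtain ⟨G', _, hR⟩ := hR ι X M0 m1 m2 θ θ1 θ2 ((t3 (2 * P)).of_isClosed_subset
    (isClosed_le θ1.continuous continuous_const) fun p (hp : θ p ≤ W') =>
      show t p ≤ _ by linarith [(θ3 p).1, le_abs_self (t p - P)])
  refine ⟨G', inferInstance, fun G G1 _ _ => ?_⟩
  have s0 : 0 < min t0 t1 := lt_min h0 h1
  obtain ⟨η', hη', hE⟩ := hE (Fintype.card (G ⊕ G1 ⊕ G')) (min t0 t1 / 8) (by positivity)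
  refine ⟨η', hη', fun η η1 a0 a1 a2 u φ u1 φ1 ψ ψ1 t' e0 e1 ht' f0 o o1 => ?_⟩
  have pi2 : π / 2 < 2 := by linarith [pi_lt_four]
  have nf : ∀ {x : ℝ}, x = -2 → ¬|x| ≤ π / 2 := fun h h' => by
    rw [h, abs_neg, abs_two] at h'
    linarith
  have z1 : ∀ p, θ p ≤ W' → Z + 1 ≤ t p ∧ t p ≤ 2 * P - Z - 1 := fun p hp => by
    have := abs_le.1 (show |t p - P| ≤ W + W' + 3 by linarith [(θ3 p).1])
    constructor <;> linarith [this.1, this.2]
  have lo : ∀ p, t p ≤ P → H + W + 1 ≤ |t' p| := fun p hp => by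
    linarith [neg_abs_le (t' p), ht' p]
  have g12 : ∀ p, t p ≤ P → ∀ f, a2.Γ f p = a1.Γ f p := fun p hp f =>
    o1.same.gam' (show H + W ≤ |t' p| by linarith [lo p hp]) f f
  have hi' : ∀ p, t p ≤ 2 * P - Z → Z ≤ |t' p| := fun p hp => by linarith [neg_abs_le (t' p), ht' p]
  have key : ∀ p, Z ≤ t p → t p ≤ 2 * P - Z → t0 + ∑ j, a2.Γ (Sum.elim u u1 j) p ≤ a2.V p := by
    intro p hp hp'
    simp only [Fintype.sum_sum_type, Sum.elim_inl, Sum.elim_inr]
    rcases le_total (t p) P with h | h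
    · rw [Finset.sum_eq_zero (s := Finset.univ) (f := fun g => a2.Γ (u1 g) p) fun g _ =>
        (o1.cst g p (by linarith [lo p h])).elim fun _ h => a2.Γ_const h, add_zero,
        o1.V p (by linarith [lo p h])]
      simp only [g12 p h]
      exact o.pay p (hp.trans (le_abs_self _)) (abs_le.2 ⟨by linarith, by linarith⟩)
    · rw [Finset.sum_eq_zero (s := Finset.univ) (f := fun g => a2.Γ (u g) p) fun g _ =>
        (o.cst g p (by linarith [le_abs_self (t p)])).elim fun _ h => a2.Γ_const h, zero_add]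
      exact o1.pay p (hi' p hp') (abs_le.2 ⟨by linarith [ht' p], by linarith [ht' p]⟩)
  have c2 : a2.M.ch = a0.M.ch := o1.same.ch.trans o.same.ch
  have sm0 : ∀ {f : X → ℝ}, a0.M.Sm f → a2.M.Sm f := fun hf => o1.same.sm_iff.2 (o.same.sm_iff.2 hf)
  obtain ⟨b, u', φ', r⟩ := hR η' hη' a2 (G ⊕ G1) (Sum.elim u u1) (c2.trans f0.ch) o1.fm
    (by rintro (g | g); exacts [sm0 (o.su g), o1.same.sm_iff.2 (o1.su g)])
    (fun f hf p hp => by
      obtain ⟨z2, z3⟩ := z1 p hp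
      rw [← f0.gam' (show 0 ≤ t p by linarith)]
      rcases le_total (t p) P with h | h
      · rw [g12 p h]
        exact o.le p (by linarith [le_abs_self (t p)]) f (o.same.sm_iff.1 (o1.same.sm_iff.1 hf))
      · rw [← o.same.gam' (show H + W ≤ |t p| by linarith [le_abs_self (t p)])]
        exact o1.le p (hi' p (by linarith)) f (o1.same.sm_iff.1 hf))
    fun p hp => key p (by linarith [(z1 p hp).1]) (by linarith [(z1 p hp).2])
  have loc : ∀ p, 0 ≤ ψ p → ψ1 p ≤ 0 → -Z < t p ∧ t p < 2 * P + Z := fun p hp hp' =>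
    ⟨lt_of_not_ge fun h => by linarith [o.dn p h], lt_of_not_ge fun h => by
      linarith [o1.up p (by linarith [ht' p])]⟩
  have fθ : ∀ p, |t p| ≤ Z ∨ |t' p| ≤ Z → W' + 1 ≤ θ p := fun p hp => by
    rcases hp with hp | hp
    · linarith [(θ3 p).1, neg_abs_le (t p - P), le_abs_self (t p)]
    · linarith [(θ3 p).1, le_abs_self (t p - P), neg_abs_le (t' p), ht' p]
  have only : ∀ p, |t p| ≤ Z → ∀ k : G ⊕ G1 ⊕ G', |Sum.elim φ (Sum.elim φ1 φ') k p| ≤ π / 2 →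
      ∃ g, Sum.inl g = k := by
    rintro p hp (g | g | g) h
    · exact ⟨g, rfl⟩
    · exact absurd h (nf (o1.far g p (by linarith [lo p (by linarith [le_abs_self (t p)])])))
    · exact absurd h (nf (r.far g p (by linarith [fθ p (.inl hp)])))
  have only1 : ∀ p, |t' p| ≤ Z → ∀ k : G ⊕ G1 ⊕ G', |Sum.elim φ (Sum.elim φ1 φ') k p| ≤ π / 2 →
      ∃ g, Sum.inr (Sum.inl g) = k := by
    rintro p hp (g | g | g) h
    · exact absurd h (nf (o.far g p (by linarith [le_abs_self (t p), neg_abs_le (t' p), ht' p])))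
    · exact ⟨g, rfl⟩
    · exact absurd h (nf (r.far g p (by linarith [fθ p (.inr hp)])))
  have le2 : ∀ p, a2.Le b c p := fun p => (le_total (θ p) W').elim (r.le p) fun h =>
    St.Le.of_eq hc fun f => r.same.gam' h f f
  have m0 := min_le_left t0 t1
  have m1' := min_le_right t0 t1
  obtain ⟨Φ, Φ1, Φ2, Φ3⟩ := hE b.ι X b.M b.V (G ⊕ G1 ⊕ G') (Sum.elim φ (Sum.elim φ1 φ'))
    {p | 0 ≤ ψ p ∧ ψ1 p ≤ 0} r.fm
    (by
      rintro (g | g | g)
      exacts [r.same.sm_iff.2 (sm0 (o.sφ g)), r.same.sm_iff.2 (o1.same.sm_iff.2 (o1.sφ g)),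
        r.same.sm_iff.2 (r.sφ g)]) le_rfl
    ((t3 (2 * P + Z)).of_isClosed_subset ((isClosed_le continuous_const o.cψ).inter
      (isClosed_le o1.cψ continuous_const)) fun p hp => (loc p hp.1 hp.2).2.le)
    (fun p hp => by
      obtain ⟨l1, l2⟩ := loc p hp.1 hp.2
      by_cases h : |t p| ≤ Z
      · have h2 : W' ≤ θ p := by linarith [fθ p (.inl h)]
        have h3 : t p ≤ P := by linarith [le_abs_self (t p)]
        exact (o.cls p h).ext e0 (by linarith [r.V p h2, o1.V p (by linarith [lo p h3])])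
          Sum.inl Sum.inl_injective (fun _ => rfl)
          (fun f => (r.same.gam' h2 f f).trans (g12 p h3 f)) (only p h)
      by_cases h' : |t' p| ≤ Z
      · have h2 : W' ≤ θ p := by linarith [fθ p (.inr h')]
        exact (o1.cls p h').ext e1 (by linarith [r.V p h2]) (fun g => Sum.inr (Sum.inl g))
          (Sum.inr_injective.comp Sum.inl_injective) (fun _ => rfl)
          (fun f => r.same.gam' h2 f f) (only1 p h')
      have l3 : Z ≤ t p := le_of_not_gt fun h2 => h (abs_le.2 ⟨l1.le, h2.le⟩)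
      have l4 : t p ≤ 2 * P - Z := le_of_not_gt fun h2 =>
        h' (abs_le.2 ⟨by linarith [ht' p], by linarith [ht' p]⟩)
      have sl : Slope b η' (Sum.elim u (Sum.elim u1 u')) (Sum.elim φ (Sum.elim φ1 φ')) p := by
        rintro (g | g | g) hg
        · rcases le_total (t p) P with h2 | h2
          · exact (o.slope p b (not_le.1 h).le (r.same.ch.trans c2)
              ((le2 p).left o1.same.ch (g12 p h2))).mono e0 g hg
          · exact absurd hg (nf (o.far g p (by linarith [le_abs_self (t p)])))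
        · exact (o1.slope p b (not_le.1 h').le (r.same.ch.trans o1.same.ch) (le2 p)).mono e1 g hg
        · exact r.slope p b r.same.ch (St.Le.of_eq hc fun _ => rfl) g hg
      refine Or.inr (N228.G.Ok.mono (sl.pay hη' s0 (v := b.V p) ?_) (by linarith) (fun _ _ => le_rfl)
        fun _ _ => le_rfl)
      rcases le_total (θ p) W' with h2 | h2
      · have := r.pay p h2
        simp only [Fintype.sum_sum_type, Sum.elim_inl, Sum.elim_inr] at this ⊢
        linarith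
      · have := key p l3 l4
        simp only [Fintype.sum_sum_type, Sum.elim_inl, Sum.elim_inr] at this ⊢
        rw [Finset.sum_eq_zero (s := Finset.univ) (f := fun g => b.Γ (u' g) p) fun g _ =>
          (r.cst g p (by linarith)).elim fun _ h => b.Γ_const h, r.V p h2]
        simp only [show ∀ f, b.Γ f p = a2.Γ f p from fun f => r.same.gam' h2 f f]
        linarith)
    fun p hp hi => by
      have h2 : ψ p = 0 ∨ ψ1 p = 0 := by
        by_contra h
        rw [not_or] at h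
        exact hi (mem_interior_iff_mem_nhds.2 (mem_of_superset
          (((isOpen_lt continuous_const o.cψ).inter (isOpen_lt o1.cψ continuous_const)).mem_nhds
            ⟨hp.1.lt_of_ne' h.1, hp.2.lt_of_ne h.2⟩) fun q hq => ⟨le_of_lt hq.1, le_of_lt hq.2⟩))
      suffices (N228.G.fin (ev (Sum.elim φ (Sum.elim φ1 φ')) p)).card ≤ n - 2 by
        unfold Few
        omega
      rcases h2 with h2 | h2
      · have h3 : |t p| ≤ Z := abs_le.2 ⟨(loc p hp.1 hp.2).1.le, le_of_not_ge fun h => by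
          linarith [o.up p h]⟩
        refine few_ext (o.few p (by simp [h2])) Sum.inl _ fun k hk => ?_
        have hk' := N228.G.mem_fin.1 hk
        obtain ⟨g, rfl⟩ := only p h3 k hk'
        exact ⟨g, rfl, hk'⟩
      · have h3 : |t' p| ≤ Z := abs_le.2 ⟨le_of_not_ge fun h => by linarith [o1.dn p h], by
          linarith [(loc p hp.1 hp.2).2, ht' p]⟩
        refine few_ext (o1.few p (by simp [h2])) (fun g => Sum.inr (Sum.inl g)) _ fun k hk => ?_
        have hk' := N228.G.mem_fin.1 hk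
        obtain ⟨g, rfl⟩ := only1 p h3 k hk'
        exact ⟨g, rfl, hk'⟩
  exact ⟨φ', Φ, fun g => (r.sφ g).continuous, fun p hp => r.face p (by linarith [(θ3 p).2]),
    fun g p hp => r.far g p (by linarith [(θ3 p).1]), Φ1, fun k p h h' => Φ2 k p ⟨h, h'⟩,
    fun p h h' => Φ3 p ⟨h, h'⟩⟩

end Crest.Agent.N228.T

end
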